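import Mathlib
import Vale.Agent.P338.R3.H352.Zt
import Vale.Agent.P338.R3.H955.Digits

/-!
P338-D, module ASM (3): geometry of the array, step codes, exact semantics, the schedule.

Index `u < 2 ^ (a * d + s)`: digit `i < d` = bits `a * i, ..., a * i + a - 1` (digit `0` innermost),
selector bit `i < s` = bit `a * d + i`; selector `i < d` is the register bit of digit `i`.
`δ` = type of the local diagonal codes (diagonals on one digit with its register bit), with values
`lv : (radix) → δ → (local position) → ℂ`, local position = `register * 2 ^ a + digit value`.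
Lists of steps are executed from the left.
-/

namespace Vale.Agent.P338.R3.H282

open Vale.Agent.P338.R3.H352 (zt)
open Vale.Agent.P338.R3.H955 (mv up wloc wglob decL)

/-- geometry: `a` bits per digit, `d` digits, `s` selector bits, groups of `gs` digits,
radices `q`, inverses `iv k i` of `q k` modulo `q i` -/
structure Geo where
  /-- bits per digit -/
  a : ℕ
  /-- number of digits -/
  d : ℕ
  /-- number of selector bits -/
  s : ℕ
  /-- group size -/
  gs : ℕ
  /-- number of the last group -/
  t : ℕ
  /-- radices -/
  q : ℕ → ℕ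
  /-- inverses -/
  iv : ℕ → ℕ → ℕ

/-- local layer: on one digit with its register bit (bit `a`) -/
inductive Ly (δ : Type)
  | dn (t : ℕ)
  | up (t : ℕ)
  | dg (c : δ)

/-- codes of global diagonals -/
inductive DC (δ : Type)
  /-- the local diagonal `c` on every digit of `J` -/
  | loc (J : List ℕ) (c : δ)
  /-- phase of the shear of the digits in position `p` of their group (`neg`: inverse shear) -/
  | shA (neg : Bool) (p : ℕ)
  /-- phase of the shear of group `g` -/
  | shB (neg : Bool) (g : ℕ)
  /-- `1, -2` on the selector bit `i` -/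
  | hd (i : ℕ)
  /-- twiddle of the selector bit `i` (`inv`: inverse) -/
  | tw (inv : Bool) (i : ℕ)
  /-- correction after the pointwise product -/
  | corr

/-- global steps; `dn J`: for every bit position of `J`, cell with bit `0` += cell with bit `1` -/
inductive St (δ : Type)
  | dn (J : List ℕ)
  | up (J : List ℕ)
  | dg (c : DC δ)

namespace Geo

variable (G : Geo)

/-- value of the digit `i` -/
def dv (u i : ℕ) : ℕ := u / 2 ^ (G.a * i) % 2 ^ G.a

/-- register bit of digit `i` = selector bit `i` -/
def rb (u i : ℕ) : Bool := u.testBit (G.a * G.d + i)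

/-- local position of digit `i` -/
def lp (u i : ℕ) : ℕ := (if G.rb u i then 2 ^ G.a else 0) + G.dv u i

/-- all digits are below their radices -/
def valid (u : ℕ) : Bool := (List.range G.d).all fun i => decide (G.dv u i < G.q i)

/-- product of the radices -/
def N : ℕ := up G.q 0 G.d

/-- mixed radix value of the digits -/
def dj (u : ℕ) : ℕ := mv G.q (G.dv u) 0 G.d

/-- value of all selector bits -/
def sv (u : ℕ) : ℕ := u / 2 ^ (G.a * G.d)

/-- natural index of a valid position -/
def idx (u : ℕ) : ℕ := G.sv u * G.N + G.dj u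

/-- shift of digit `i` in stage A -/
def wa (u i : ℕ) : ℕ := wloc G.q G.iv G.gs i (G.dv u)

/-- shift of digit `i` in stage B -/
def wb (u i : ℕ) : ℕ :=
  wglob G.q G.iv G.gs i (fun k => (decL G.q G.iv G.gs (G.dv u) (G.gs * (i / G.gs))).getD k 0)

/-- digits in position `p` of their group -/
def posJ (p : ℕ) : List ℕ := (List.range G.d).filter fun i => i % G.gs = p

/-- digits of group `g` -/
def grpJ (g : ℕ) : List ℕ := (List.range G.d).filter fun i => i / G.gs = g

/-- phase of a shift by `w` of digit `i`: `-ψ (k w)` on register `1`, `-ψ (-k w)` on register `0`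
(the sign makes `W, phase, W` exactly the shift) -/
noncomputable def ph (neg : Bool) (u i w : ℕ) : ℂ :=
  -zt (G.q i) ((if G.rb u i = neg then -1 else 1) * ((G.dv u i : ℤ) * (w : ℤ)))

/-- exact value of a diagonal code -/
noncomputable def val {δ : Type} (lv : ℕ → δ → ℕ → ℂ) (c : DC δ) (u : ℕ) : ℂ :=
  match c with
  | .loc J c => (J.map fun i => lv (G.q i) c (G.lp u i)).prod
  | .shA neg p => ((G.posJ p).map fun i => G.ph neg u i (G.wa u i)).prod
  | .shB neg g => ((G.grpJ g).map fun i => G.ph neg u i (G.wb u i)).prod
  | .hd i => if G.rb u i then -2 else 1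
  | .tw inv i => if G.rb u i then
      zt (2 ^ (i + 1) * G.N) ((if inv then -1 else 1) *
        (((G.sv u % 2 ^ i) * G.N + G.dj u : ℕ) : ℤ)) else 1
  | .corr => (-1) ^ G.d / 2 ^ G.s *
      ((List.range G.d).map fun i => if G.rb u i then 1 else -(G.q i : ℂ)).prod

/-- absolute position of the local bit `t` of digit `i` -/
def bp (t i : ℕ) : ℕ := if t < G.a then G.a * i + t else G.a * G.d + i

/-- a local layer in lockstep on the digits of `J` -/
def lk {δ : Type} (J : List ℕ) : Ly δ → St δ
  | .dn t => .dn (J.map (G.bp t))
  | .up t => .up (J.map (G.bp t))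
  | .dg c => .dg (.loc J c)

/-- the local program in lockstep on the digits of `J` -/
def W {δ : Type} (prog : List (Ly δ)) (J : List ℕ) : List (St δ) := prog.map (G.lk J)

/-- butterfly of the selector bit `i` -/
def selF {δ : Type} (i : ℕ) : List (St δ) :=
  [.dn [G.a * G.d + i], .dg (.hd i), .up [G.a * G.d + i], .dg (.tw false i)]

/-- inverse butterfly (times 2) of the selector bit `i` -/
def selI {δ : Type} (i : ℕ) : List (St δ) :=
  [.dg (.tw true i), .dn [G.a * G.d + i], .dg (.hd i), .up [G.a * G.d + i]]

/-- shear of the positions `p` -/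
def stA {δ : Type} (prog : List (Ly δ)) (neg : Bool) (p : ℕ) : List (St δ) :=
  G.W prog (G.posJ p) ++ (.dg (.shA neg p)) :: G.W prog (G.posJ p)

/-- shear of the group `g` -/
def stB {δ : Type} (prog : List (Ly δ)) (neg : Bool) (g : ℕ) : List (St δ) :=
  G.W prog (G.grpJ g) ++ (.dg (.shB neg g)) :: G.W prog (G.grpJ g)

/-- the forward schedule (before the product) -/
def fwd {δ : Type} (prog : List (Ly δ)) : List (St δ) :=
  (List.range G.s).reverse.flatMap G.selF ++
  ((List.range' 1 (G.gs - 1)).reverse.flatMap (G.stA prog false) ++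
  ((List.range' 1 G.t).reverse.flatMap (G.stB prog false) ++
  G.W prog (List.range G.d)))

/-- the schedule after the product -/
def bwd {δ : Type} (prog : List (Ly δ)) : List (St δ) :=
  .dg .corr :: (G.W prog (List.range G.d) ++
  ((List.range' 1 G.t).flatMap (G.stB prog true) ++
  ((List.range' 1 (G.gs - 1)).flatMap (G.stA prog true) ++
  (List.range G.s).flatMap G.selI)))

end Geo

/-- cell with bit `b` equal to `0` += cell with bit `1` -/
def dnF {M : Type*} [AddCommGroup M] (b : ℕ) (f : ℕ → M) (u : ℕ) : M :=
  if u.testBit b then f u else f u + f (u + 2 ^ b)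

/-- cell with bit `b` equal to `1` += cell with bit `0` -/
def upF {M : Type*} [AddCommGroup M] (b : ℕ) (f : ℕ → M) (u : ℕ) : M :=
  if u.testBit b then f u + f (u - 2 ^ b) else f u

section semantics

variable {M : Type*} [AddCommGroup M] [Module ℂ M]

/-- exact semantics of a step on arrays `ℕ → M` -/
noncomputable def St.ex {δ : Type} (G : Geo) (lv : ℕ → δ → ℕ → ℂ) : St δ → (ℕ → M) → (ℕ → M)
  | .dn J, f => J.foldr dnF f
  | .up J, f => J.foldr upF f
  | .dg c, f => fun u => G.val lv c u • f u

/-- exact semantics of a list of steps (first step first) -/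
noncomputable def exs {δ : Type} (G : Geo) (lv : ℕ → δ → ℕ → ℂ) (l : List (St δ))
    (f : ℕ → M) : ℕ → M := l.foldl (fun g st => st.ex G lv g) f

end semantics

end Vale.Agent.P338.R3.H282
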