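import Vale.Agent.P338.R3.H282.Sel

/-!
P338-D, module ASM (7): cyclic products and characters; the loaded array after the selector
butterflies as a zero padded array on (register, digit) tuples.
-/

namespace Vale.Agent.P338.R3.H282

open Finset
open Vale.Agent.P338.R3.H352 (zt zt_add zt_mul_self zt_congr zt_zero)
open Vale.Agent.P338.R3.H955 (mv mv_congr theta ivp)

set_option linter.unusedSectionVars false

section conv

variable {𝔸 : Type*} [Ring 𝔸] [Algebra ℂ 𝔸]

/-- cyclic product of length `n` -/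
def conv {𝔸 : Type*} [Ring 𝔸] (n : ℕ) (f g : ℕ → 𝔸) (c : ℕ) : 𝔸 :=
  ∑ i ∈ range n, ∑ j ∈ range n, if (i + j) % n = c then f i * g j else 0

theorem conv_char {n : ℕ} {χ : ℕ → ℂ} (hadd : ∀ i j, χ (i + j) = χ i * χ j)
    (hmod : ∀ j, χ (j % n) = χ j) (f g : ℕ → 𝔸) :
    ∑ c ∈ range n, χ c • conv n f g c =
      (∑ i ∈ range n, χ i • f i) * ∑ j ∈ range n, χ j • g j := by
  unfold conv
  rw [Finset.sum_mul_sum]
  have h1 : ∀ c ∈ range n, χ c • ∑ i ∈ range n, ∑ j ∈ range n,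
      (if (i + j) % n = c then f i * g j else 0) = ∑ i ∈ range n, ∑ j ∈ range n,
        (if (i + j) % n = c then χ c • (f i * g j) else 0) := by
    intro c _
    rw [Finset.smul_sum]
    refine Finset.sum_congr rfl fun i _ => ?_
    rw [Finset.smul_sum]
    refine Finset.sum_congr rfl fun j _ => ?_
    split_ifs
    · rfl
    · rw [smul_zero]
  rw [Finset.sum_congr rfl h1, Finset.sum_comm]
  refine Finset.sum_congr rfl fun i hi => ?_
  rw [Finset.sum_comm]
  refine Finset.sum_congr rfl fun j _ => ?_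
  rw [Finset.sum_ite_eq (range n) ((i + j) % n) (fun c => χ c • (f i * g j))]
  have hn : 0 < n := lt_of_le_of_lt (Nat.zero_le _) (mem_range.1 hi)
  rw [if_pos (mem_range.2 (Nat.mod_lt _ hn)), hmod, hadd, smul_mul_smul_comm]

end conv

section sel

variable {M : Type*} [AddCommGroup M] [Module ℂ M] {δ : Type}
variable {G : Geo} [∀ k, NeZero (G.q k)]

/-- selector value of register bits `ρ` and higher selector value `e` -/
def sg (G : Geo) (ρ : Fin G.d → Bool) (e : ℕ) : ℕ :=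
  mv (fun _ => 2) (fun k => if h : k < G.d then (if ρ ⟨k, h⟩ then 1 else 0) else 0) 0 G.d +
    2 ^ G.d * e

lemma sv_eq_sg (u : ℕ) : G.sv u = sg G (fun i => G.rb u i) (G.sv u / 2 ^ G.d) := by
  have h := enc_div (tup G u) (G.sv u / 2 ^ G.d)
  rw [enc_tup] at h
  rw [h]
  unfold sg
  have h2 : (mv (fun _ => 2) (fun k => pn G (tup G u) k / 2 ^ G.a) 0 G.d +
      2 ^ G.d * (G.sv u / 2 ^ G.d)) / 2 ^ G.d = G.sv u / 2 ^ G.d := by
    rw [Nat.add_mul_div_left _ _ (by positivity), Nat.div_eq_of_lt (mv_hi_lt _), zero_add]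
  rw [h2]
  congr 1
  apply mv_congr
  intro k _ hk
  rw [zero_add] at hk
  simp only [pn, hk, dif_pos, tup, lp_div]

/-- mixed radix value of a tuple of residues -/
def dval (G : Geo) (x : ∀ i : Fin G.d, ZMod (G.q i)) : ℕ :=
  mv G.q (fun k => if h : k < G.d then (x ⟨k, h⟩).val else 0) 0 G.d

lemma dj_eq {u : ℕ} (h : G.valid u = true) : G.dj u = dval G (fun i => (crd G u i).2) := by
  rw [valid_iff] at h
  unfold Geo.dj dval
  apply mv_congr
  intro k _ hk
  rw [zero_add] at hk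
  simp only [hk, dif_pos, crd]
  rw [ZMod.val_cast_of_lt (h k hk)]

/-- the array after the butterflies of the selectors, on (register, digit) tuples -/
noncomputable def phi (G : Geo) (f : ℕ → M) (e : ℕ) (y : ∀ i : Fin G.d, Bool × ZMod (G.q i)) : M :=
  ∑ j ∈ range (tot G), if j % G.N = dval G (fun i => (y i).2) then
    zt (tot G) ((kap G.s (sg G (fun i => (y i).1) e) 0 : ℤ) * j) • f j else 0

theorem rel_phi {hq : ∀ i : Fin G.d, G.q i ≤ 2 ^ G.a} (hds : G.d ≤ G.s)
    (lv : ℕ → δ → ℕ → ℂ) (f : ℕ → M) :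
    Rel hq (exs G lv ((List.range G.s).reverse.flatMap G.selF) (load G f)) (phi G f) := by
  apply Rel.of_apply hds
  intro u hu
  rw [selFs_load lv f hu]
  split_ifs with hv
  · unfold phi
    have h : sg G (fun i => (crd G u i).1) (G.sv u / 2 ^ G.d) = G.sv u := (sv_eq_sg u).symm
    rw [dj_eq hv, h]
  · rfl

/-- the character of frequency `κ` on the selectors and `w` on the residues -/
noncomputable def chr (G : Geo) [∀ k, NeZero (G.q k)] (κ : ℕ) (w : ∀ i : Fin G.d, ZMod (G.q i)) (j : ℕ) : ℂ :=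
  zt (tot G) ((κ : ℤ) * j) * ∏ i : Fin G.d, ZMod.stdAddChar (w i * (j : ZMod (G.q i)))

lemma chr_add (κ : ℕ) (w : ∀ i : Fin G.d, ZMod (G.q i)) (i j : ℕ) :
    chr G κ w (i + j) = chr G κ w i * chr G κ w j := by
  unfold chr
  have h1 : zt (tot G) ((κ : ℤ) * ((i + j : ℕ) : ℤ)) =
      zt (tot G) ((κ : ℤ) * i) * zt (tot G) ((κ : ℤ) * j) := by
    rw [← zt_add]; congr 1; push_cast; ring
  have h2 : ∀ k : Fin G.d, (ZMod.stdAddChar (w k * ((i + j : ℕ) : ZMod (G.q k))) : ℂ) =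
      ZMod.stdAddChar (w k * (i : ZMod (G.q k))) * ZMod.stdAddChar (w k * (j : ZMod (G.q k))) := by
    intro k
    rw [← AddChar.map_add_eq_mul]
    congr 1
    push_cast
    ring
  rw [h1, Finset.prod_congr rfl fun k _ => h2 k, Finset.prod_mul_distrib]
  ring

lemma q_dvd_up {q : ℕ → ℕ} {n k : ℕ} (hk : k < n) :
    q k ∣ Vale.Agent.P338.R3.H955.up q 0 n := by
  obtain ⟨r, rfl⟩ : ∃ r, n = k + (1 + r) := ⟨n - k - 1, by omega⟩
  rw [Vale.Agent.P338.R3.H955.up_add, add_comm 1 r, zero_add]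
  show q k ∣ _ * (q k * _)
  exact Dvd.dvd.mul_left (dvd_mul_right _ _) _

lemma q_dvd_tot {k : ℕ} (hk : k < G.d) : G.q k ∣ tot G :=
  Dvd.dvd.mul_left (q_dvd_up hk) _

lemma tot_pos : 0 < tot G := Nat.mul_pos (by positivity) N_pos

lemma chr_mod (κ : ℕ) (w : ∀ i : Fin G.d, ZMod (G.q i)) (j : ℕ) :
    chr G κ w (j % tot G) = chr G κ w j := by
  unfold chr
  congr 1
  · apply zt_congr tot_pos
    have h1 : ((j % tot G : ℕ) : ℤ) ≡ (j : ℤ) [ZMOD (tot G : ℤ)] :=
      Int.natCast_modEq_iff.2 (Nat.mod_modEq _ _)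
    exact h1.mul_left _
  · refine Finset.prod_congr rfl fun k _ => ?_
    congr 2
    have h1 := Nat.div_add_mod j (tot G)
    have h2 : ((tot G : ℕ) : ZMod (G.q k)) = 0 := by
      rw [ZMod.natCast_eq_zero_iff]
      exact q_dvd_tot k.2
    conv_rhs => rw [← h1]
    push_cast
    rw [h2]
    ring

end sel

end Vale.Agent.P338.R3.H282
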