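import Vale.Agent.P338.R3.H282.Flat

/-!
P338-D, module ASM (5): the steps in lockstep, on flat arrays and on tuples of local positions.
-/

namespace Vale.Agent.P338.R3.H282

open Finset

set_option linter.unusedSectionVars false

variable {M : Type*} [AddCommGroup M] [Module ℂ M] {δ : Type}

/-- a flat array as an array on tuples of local positions -/
def toC (G : Geo) (F : ℕ → M) (e : ℕ) : (∀ _ : Fin G.d, Fin (2 ^ (G.a + 1))) → M :=
  fun p => F (enc G p e)

/-- the local layers as matrices on `2 ^ (a + 1)` positions -/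
noncomputable def lmat (a : ℕ) (lv : δ → ℕ → ℂ) :
    Ly δ → Matrix (Fin (2 ^ (a + 1))) (Fin (2 ^ (a + 1))) ℂ
  | .dn t => fun p p' => (if p' = p then 1 else 0) +
      (if (p : ℕ).testBit t = false ∧ (p' : ℕ) = p + 2 ^ t then 1 else 0)
  | .up t => fun p p' => (if p' = p then 1 else 0) +
      (if (p : ℕ).testBit t = true ∧ (p' : ℕ) = p - 2 ^ t then 1 else 0)
  | .dg c => Matrix.diagonal fun p => lv c p

/-- legal local layers -/
def Ly.ok (a : ℕ) : Ly δ → Prop
  | .dn t => t ≤ a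
  | .up t => t ≤ a
  | .dg _ => True

lemma testBit_sub {p t : ℕ} (h : p.testBit t = true) :
    2 ^ t ≤ p ∧ (p - 2 ^ t).testBit t = false := by
  have h1 := (testBit_iff _ _).1 h
  have h2 : 2 ^ t ≤ p := by
    by_contra h3
    rw [Nat.div_eq_of_lt (by omega)] at h1
    simp at h1
  refine ⟨h2, ?_⟩
  obtain ⟨r, rfl⟩ := Nat.exists_eq_add_of_le' h2
  rw [Nat.add_sub_cancel]
  rw [Nat.add_div_right _ (by positivity)] at h1
  rw [Nat.testBit_eq_decide_div_mod_eq, decide_eq_false_iff_not]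
  omega

variable {G : Geo}

lemma valid_iff (u : ℕ) : G.valid u = true ↔ ∀ i < G.d, G.dv u i < G.q i := by
  simp [Geo.valid]

theorem toC_dnF (i : Fin G.d) {t : ℕ} (ht : t ≤ G.a) (lv : δ → ℕ → ℂ) (F : ℕ → M) (e : ℕ) :
    toC G (dnF (G.bp t i) F) e = lift i (lmat G.a lv (.dn t)) (toC G F e) := by
  funext p
  rw [lift_apply]
  simp only [toC, dnF, lmat, add_smul, ite_smul, one_smul, zero_smul, Finset.sum_add_distrib,
    Finset.sum_ite_eq', Finset.mem_univ, if_true, Function.update_eq_self]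
  rw [testBit_enc p e i ht]
  by_cases h : (p i : ℕ).testBit t = true
  · rw [if_pos h, Finset.sum_eq_zero, add_zero]
    intro x _
    rw [if_neg]
    rintro ⟨h1, -⟩
    rw [h] at h1
    exact Bool.noConfusion h1
  · have h' : (p i : ℕ).testBit t = false := by simpa using h
    rw [if_neg h]
    congr 1
    rw [Finset.sum_eq_single ⟨p i + 2 ^ t, (div_mod_add (p i).2 ht h').1⟩]
    · rw [if_pos ⟨h', rfl⟩, enc_add p e i ht h']
    · intro b _ hb
      rw [if_neg]
      rintro ⟨-, h2⟩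
      exact hb (Fin.ext h2)
    · simp

theorem toC_upF (i : Fin G.d) {t : ℕ} (ht : t ≤ G.a) (lv : δ → ℕ → ℂ) (F : ℕ → M) (e : ℕ) :
    toC G (upF (G.bp t i) F) e = lift i (lmat G.a lv (.up t)) (toC G F e) := by
  funext p
  rw [lift_apply]
  simp only [toC, upF, lmat, add_smul, ite_smul, one_smul, zero_smul, Finset.sum_add_distrib,
    Finset.sum_ite_eq', Finset.mem_univ, if_true, Function.update_eq_self]
  rw [testBit_enc p e i ht]
  by_cases h : (p i : ℕ).testBit t = true
  · rw [if_pos h]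
    congr 1
    obtain ⟨h1, h2⟩ := testBit_sub h
    have h3 : (p i : ℕ) - 2 ^ t < 2 ^ (G.a + 1) := lt_of_le_of_lt (Nat.sub_le _ _) (p i).2
    rw [Finset.sum_eq_single ⟨p i - 2 ^ t, h3⟩]
    · rw [if_pos ⟨h, rfl⟩]
      have h4 := enc_add (Function.update p i ⟨p i - 2 ^ t, h3⟩) e i ht
        (by simpa [Function.update_self] using h2)
      have h5 : Function.update (Function.update p i ⟨p i - 2 ^ t, h3⟩) i
          ⟨(Function.update p i ⟨p i - 2 ^ t, h3⟩ i : ℕ) + 2 ^ t, (div_mod_add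
            (Function.update p i ⟨p i - 2 ^ t, h3⟩ i).2 ht
              (by simpa [Function.update_self] using h2)).1⟩ = p := by
        rw [Function.update_idem]
        conv_rhs => rw [← Function.update_eq_self i p]
        congr 1
        apply Fin.ext
        simp only [Function.update_self]
        omega
      rw [h5] at h4
      rw [h4, Nat.add_sub_cancel]
    · intro b _ hb
      rw [if_neg]
      rintro ⟨-, h2⟩
      exact hb (Fin.ext h2)
    · simp
  · rw [if_neg h, Finset.sum_eq_zero, add_zero]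
    intro x _
    rw [if_neg]
    rintro ⟨h1, -⟩
    exact h h1

theorem toC_lk (J : List (Fin G.d)) {l : Ly δ} (hl : l.ok G.a) (lv : ℕ → δ → ℕ → ℂ)
    (F : ℕ → M) (e : ℕ) : toC G (St.ex G lv (G.lk (J.map Fin.val) l) F) e =
      lock J (fun i => lmat G.a (lv (G.q i)) l) (toC G F e) := by
  cases l with
  | dn t =>
    simp only [Geo.lk, St.ex]
    induction J with
    | nil => rfl
    | cons j J ih =>
      rw [List.map_cons, List.map_cons, List.foldr_cons, toC_dnF j hl (lv (G.q j)), ih, lock_cons]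
      rfl
  | up t =>
    simp only [Geo.lk, St.ex]
    induction J with
    | nil => rfl
    | cons j J ih =>
      rw [List.map_cons, List.map_cons, List.foldr_cons, toC_upF j hl (lv (G.q j)), ih, lock_cons]
      rfl
  | dg c =>
    funext p
    simp only [lmat]
    rw [lock_diagonal]
    simp only [Geo.lk, St.ex, toC, Geo.val, List.map_map]
    congr 2
    apply List.map_congr_left
    intro i _
    simp only [Function.comp]
    rw [lp_enc p e i.2]
    simp [pn]

/-- the matrix of a local program -/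
noncomputable def pmat (a : ℕ) (lv : δ → ℕ → ℂ) (prog : List (Ly δ)) :
    Matrix (Fin (2 ^ (a + 1))) (Fin (2 ^ (a + 1))) ℂ := (prog.reverse.map (lmat a lv)).prod

theorem exs_nil (lv : ℕ → δ → ℕ → ℂ) (F : ℕ → M) : exs G lv [] F = F := rfl

theorem exs_cons (lv : ℕ → δ → ℕ → ℂ) (st : St δ) (l : List (St δ)) (F : ℕ → M) :
    exs G lv (st :: l) F = exs G lv l (st.ex G lv F) := rfl

theorem exs_append (lv : ℕ → δ → ℕ → ℂ) (l l' : List (St δ)) (F : ℕ → M) :
    exs G lv (l ++ l') F = exs G lv l' (exs G lv l F) := List.foldl_append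

theorem toC_W {J : List (Fin G.d)} (hJ : J.Nodup) {prog : List (Ly δ)}
    (hp : ∀ l ∈ prog, l.ok G.a) (lv : ℕ → δ → ℕ → ℂ) (F : ℕ → M) (e : ℕ) :
    toC G (exs G lv (G.W prog (J.map Fin.val)) F) e =
      lock J (fun i => pmat G.a (lv (G.q i)) prog) (toC G F e) := by
  induction prog generalizing F with
  | nil =>
    show toC G F e = lock J (fun _ => 1) (toC G F e)
    rw [lock_one]
    rfl
  | cons l prog ih =>
    have h1 : G.W (l :: prog) (J.map Fin.val) =
        G.lk (J.map Fin.val) l :: G.W prog (J.map Fin.val) := rfl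
    rw [h1, exs_cons, ih fun l' hl' => hp l' (List.mem_cons_of_mem _ hl'),
      toC_lk J (hp l List.mem_cons_self)]
    have h2 : (fun i : Fin G.d => pmat G.a (lv (G.q i)) (l :: prog)) =
        fun i : Fin G.d => pmat G.a (lv (G.q i)) prog * lmat G.a (lv (G.q i)) l := by
      funext i
      simp [pmat]
    rw [h2, lock_mul hJ]
    rfl

/-! ### the padding -/

/-- (register, residue) as a local position -/
def em {G : Geo} [∀ k, NeZero (G.q k)] (hq : ∀ i : Fin G.d, G.q i ≤ 2 ^ G.a) (i : Fin G.d)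
    (b : Bool × ZMod (G.q i)) : Fin (2 ^ (G.a + 1)) :=
  ⟨(if b.1 then 2 ^ G.a else 0) + b.2.val, by
    have h1 := ZMod.val_lt b.2
    have h2 := hq i
    rw [pow_succ]
    split_ifs <;> omega⟩

variable [∀ k, NeZero (G.q k)] {hq : ∀ i : Fin G.d, G.q i ≤ 2 ^ G.a}

lemma em_mod (i : Fin G.d) (b : Bool × ZMod (G.q i)) :
    (em hq i b : ℕ) % 2 ^ G.a = b.2.val := by
  have h1 := ZMod.val_lt b.2
  have h2 := hq i
  simp only [em]
  split_ifs
  · rw [Nat.add_mod_left, Nat.mod_eq_of_lt (by omega)]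
  · rw [zero_add, Nat.mod_eq_of_lt (by omega)]

lemma em_div (i : Fin G.d) (b : Bool × ZMod (G.q i)) :
    (em hq i b : ℕ) / 2 ^ G.a = if b.1 then 1 else 0 := by
  have h1 := ZMod.val_lt b.2
  have h2 := hq i
  simp only [em]
  split_ifs
  · rw [Nat.add_div_left _ (by positivity), Nat.div_eq_of_lt (by omega)]
  · rw [zero_add, Nat.div_eq_of_lt (by omega)]

lemma em_injective (i : Fin G.d) : Function.Injective (em hq i) := by
  intro b c h
  have h1 : (em hq i b : ℕ) % 2 ^ G.a = (em hq i c : ℕ) % 2 ^ G.a := by rw [h]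
  have h2 : (em hq i b : ℕ) / 2 ^ G.a = (em hq i c : ℕ) / 2 ^ G.a := by rw [h]
  rw [em_mod, em_mod] at h1
  rw [em_div, em_div] at h2
  apply Prod.ext
  · rcases b with ⟨b1, b2⟩
    rcases c with ⟨c1, c2⟩
    cases b1 <;> cases c1 <;> simp_all
  · exact ZMod.val_injective _ h1

lemma mem_range_em {i : Fin G.d} {p : Fin (2 ^ (G.a + 1))} :
    p ∈ Set.range (em hq i) ↔ (p : ℕ) % 2 ^ G.a < G.q i := by
  constructor
  · rintro ⟨b, rfl⟩
    rw [em_mod]
    exact ZMod.val_lt _
  · intro h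
    refine ⟨(decide ((p : ℕ) / 2 ^ G.a = 1), (((p : ℕ) % 2 ^ G.a : ℕ) : ZMod (G.q i))), ?_⟩
    apply Fin.ext
    simp only [em]
    rw [ZMod.val_cast_of_lt h]
    have h1 : (p : ℕ) / 2 ^ G.a < 2 := by
      rw [Nat.div_lt_iff_lt_mul (by positivity)]
      have h5 : (p : ℕ) < 2 ^ (G.a + 1) := p.2
      have h6 : 2 ^ (G.a + 1) = 2 * 2 ^ G.a := by rw [pow_succ]; ring
      omega
    have h2 := Nat.div_add_mod (p : ℕ) (2 ^ G.a)
    by_cases h3 : (p : ℕ) / 2 ^ G.a = 1
    · rw [h3, mul_one] at h2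
      simp only [h3, decide_true, if_true]
      exact h2
    · have h4 : (p : ℕ) / 2 ^ G.a = 0 := Nat.lt_one_iff.1 (lt_of_le_of_ne (Nat.lt_succ_iff.1 h1) h3)
      rw [h4, mul_zero] at h2
      simp only [h3, decide_false, Bool.false_eq_true, if_false]
      exact h2

/-- the flat array `F` is the zero padding of the arrays `g e` -/
def Rel (hq : ∀ i : Fin G.d, G.q i ≤ 2 ^ G.a) (F : ℕ → M)
    (g : ℕ → (∀ i : Fin G.d, Bool × ZMod (G.q i)) → M) : Prop :=
  ∀ e < 2 ^ (G.s - G.d), toC G F e = ext (em hq) (g e)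

/-- coordinates of a valid position -/
def crd (G : Geo) (u : ℕ) : ∀ i : Fin G.d, Bool × ZMod (G.q i) :=
  fun i => (G.rb u i, ((G.dv u i : ℕ) : ZMod (G.q i)))

lemma emb_crd {u : ℕ} (h : G.valid u = true) : emb (em hq) (crd G u) = tup G u := by
  rw [valid_iff] at h
  funext i
  apply Fin.ext
  simp only [emb, em, crd, tup, Geo.lp]
  rw [ZMod.val_cast_of_lt (h i i.2)]
  congr 1

lemma sv_lt (hds : G.d ≤ G.s) {u : ℕ} (hu : u < 2 ^ (G.a * G.d + G.s)) :
    G.sv u / 2 ^ G.d < 2 ^ (G.s - G.d) := by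
  unfold Geo.sv
  rw [Nat.div_div_eq_div_mul, ← pow_add, Nat.div_lt_iff_lt_mul (by positivity), ← pow_add]
  convert hu using 2
  omega

theorem Rel.apply {F : ℕ → M} {g : ℕ → (∀ i : Fin G.d, Bool × ZMod (G.q i)) → M}
    (h : Rel hq F g) (hds : G.d ≤ G.s) {u : ℕ} (hu : u < 2 ^ (G.a * G.d + G.s)) :
    F u = if G.valid u then g (G.sv u / 2 ^ G.d) (crd G u) else 0 := by
  have h1 := congrFun (h (G.sv u / 2 ^ G.d) (sv_lt hds hu)) (tup G u)
  unfold toC at h1
  rw [enc_tup] at h1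
  rw [h1]
  split_ifs with hv
  · rw [← emb_crd (hq := hq) hv, ext_emb em_injective]
  · rw [valid_iff] at hv
    push Not at hv
    obtain ⟨i, hi, hv⟩ := hv
    apply ext_of_not (i := ⟨i, hi⟩)
    rw [mem_range_em]
    simp only [tup, lp_mod]
    omega

lemma enc_lt (hds : G.d ≤ G.s) (p : ∀ _ : Fin G.d, Fin (2 ^ (G.a + 1))) {e : ℕ}
    (he : e < 2 ^ (G.s - G.d)) : enc G p e < 2 ^ (G.a * G.d + G.s) := by
  have h1 := enc_div p e
  have h2 := mv_hi_lt p
  have h3 : G.sv (enc G p e) < 2 ^ G.s := by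
    rw [h1]
    calc _ < 2 ^ G.d + 2 ^ G.d * e := by omega
      _ = 2 ^ G.d * (e + 1) := by ring
      _ ≤ 2 ^ G.d * 2 ^ (G.s - G.d) := Nat.mul_le_mul_left _ he
      _ = 2 ^ G.s := by rw [← pow_add]; congr 1; omega
  unfold Geo.sv at h3
  rwa [Nat.div_lt_iff_lt_mul (by positivity), mul_comm, ← pow_add] at h3

lemma tup_enc (p : ∀ _ : Fin G.d, Fin (2 ^ (G.a + 1))) (e : ℕ) : tup G (enc G p e) = p := by
  funext i
  apply Fin.ext
  simp only [tup]
  rw [lp_enc p e i.2]
  simp [pn]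

lemma sv_enc_div (p : ∀ _ : Fin G.d, Fin (2 ^ (G.a + 1))) (e : ℕ) :
    G.sv (enc G p e) / 2 ^ G.d = e := by
  rw [enc_div, Nat.add_mul_div_left _ _ (by positivity), Nat.div_eq_of_lt (mv_hi_lt p), zero_add]

theorem Rel.of_apply (hds : G.d ≤ G.s) {F : ℕ → M}
    {g : ℕ → (∀ i : Fin G.d, Bool × ZMod (G.q i)) → M}
    (h : ∀ u < 2 ^ (G.a * G.d + G.s),
      F u = if G.valid u then g (G.sv u / 2 ^ G.d) (crd G u) else 0) : Rel hq F g := by
  intro e he
  funext p
  have h1 := h (enc G p e) (enc_lt hds p he)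
  unfold toC
  rw [h1, sv_enc_div]
  split_ifs with hv
  · conv_rhs => rw [← tup_enc p e, ← emb_crd (hq := hq) hv, ext_emb em_injective]
  · rw [valid_iff] at hv
    push Not at hv
    obtain ⟨i, hi, hv⟩ := hv
    symm
    apply ext_of_not (i := ⟨i, hi⟩)
    rw [mem_range_em]
    rw [dv_enc p e hi] at hv
    simp only [pn, hi, dif_pos] at hv
    exact not_lt.2 hv

end Vale.Agent.P338.R3.H282
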