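import Vale.Agent.P338.R3.H282.Main
import Vale.Agent.P338.R3.H955.StageRel
import Vale.Agent.P338.R3.H352.Twin

/-!
P338-D, module ASM (9): THE EXACT RUN of helper352's program in helper282's schedule with
helper955's shears is the cyclic product.
-/

namespace Vale.Agent.P338.R3.H282

open Vale.Agent.P338.R3.H955 (rel_midF rel_midB toDig_toRes toDig_theta midF midB mkT)
open Vale.Agent.P338.R3.H352 (Dc lprog twin_prog ok_lprog)

variable {G : Geo} [∀ k, NeZero (G.q k)]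

theorem crt_ok {δ : Type} {𝔸 : Type*} [AddCommGroup 𝔸] [Module ℂ 𝔸]
    {hq : ∀ i : Fin G.d, G.q i ≤ 2 ^ G.a} {lv : ℕ → δ → ℕ → ℂ} {prog : List (Ly δ)}
    (hgs : 0 < G.gs) (hD : G.d ≤ G.gs * (G.t + 1))
    (hiv : ∀ i k, i < G.d → k < i → (G.q k : ZMod (G.q i)) * (G.iv k i : ZMod (G.q i)) = 1)
    (hp : ∀ l ∈ prog, l.ok G.a)
    (ht : ∀ i : Fin G.d, Twin (A := fun _ : Fin G.d => Fin (2 ^ (G.a + 1))) (em hq) i
      (pmat G.a (lv (G.q i)) prog) (H715.Wk G.q i)) :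
    CrtOK (𝔸 := 𝔸) G hq lv prog (Vale.Agent.P338.R3.H955.Geo.toDig G)
      (Vale.Agent.P338.R3.H955.Geo.toRes G) where
  fwd _ _ h := rel_midF hgs hp ht h
  bwd _ _ h := rel_midB hgs hp ht h
  inv y := toDig_toRes hgs y
  digits ρ _ hj := toDig_theta hgs hD hiv ρ hj

/-- THE EXACT RUN: forward schedule on both operands, cellwise product, backward schedule =
cyclic product of length `tot G = 2 ^ s * N`; `𝔸` any `ℂ`-algebra -/
theorem exact_main {𝔸 : Type*} [Ring 𝔸] [Algebra ℂ 𝔸] (hgs : 0 < G.gs)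
    (hD : G.d ≤ G.gs * (G.t + 1)) (hds : G.d ≤ G.s)
    (hiv : ∀ i k, i < G.d → k < i → (G.q k : ZMod (G.q i)) * (G.iv k i : ZMod (G.q i)) = 1)
    (hq : ∀ i : Fin G.d, G.q i ≤ 2 ^ G.a) (hodd : ∀ i : Fin G.d, G.q i % 2 = 1)
    {lv : ℕ → Dc → ℕ → ℂ}
    (hlv : ∀ i : Fin G.d, ∀ c, H352.Ly.dg c ∈ H352.prog G.a →
      ∀ p, lv (G.q i) c p = c.val G.a (G.q i) p)
    (f g : ℕ → 𝔸) {u : ℕ} (hu : u < 2 ^ (G.a * G.d + G.s)) :
    exs G lv (G.bwd (lprog G.a)) (fun v => exs G lv (G.fwd (lprog G.a)) (load G f) v *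
      exs G lv (G.fwd (lprog G.a)) (load G g) v) u = load G (conv (tot G) f g) u := by
  have ht : ∀ i : Fin G.d, Twin (A := fun _ : Fin G.d => Fin (2 ^ (G.a + 1))) (em hq) i
      (pmat G.a (lv (G.q i)) (lprog G.a)) (H715.Wk G.q i) :=
    fun i => twin_prog hq i (hodd i) (hlv i)
  have hp : ∀ l ∈ lprog G.a, l.ok G.a := fun l hl => ok_lprog G.a l hl
  exact exact_run hds hp ht (crt_ok hgs hD hiv hp ht) f g hu

end Vale.Agent.P338.R3.H282
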