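import Vale.Agent.P338.R3.H282.Lock

/-!
P338-D, module ASM (2): zero padding. If the padded local matrices `Kp i` satisfy
`Kp * incl = incl * K` for injections `e i : B i → A i`, then the padded operators act on
zero-extended arrays as the unpadded ones.
-/

namespace Vale.Agent.P338.R3.H282

open Finset

set_option linter.unusedSectionVars false

variable {ι : Type*} [DecidableEq ι] {A B : ι → Type*} [∀ i, Fintype (A i)]
  [∀ i, DecidableEq (A i)] [∀ i, Fintype (B i)] [∀ i, DecidableEq (B i)]
variable {R M : Type*} [CommRing R] [AddCommGroup M] [Module R M]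

/-- the injection of index tuples -/
def emb (e : ∀ i, B i → A i) (y : ∀ i, B i) : ∀ i, A i := fun i => e i (y i)

theorem emb_injective {e : ∀ i, B i → A i} (he : ∀ i, Function.Injective (e i)) :
    Function.Injective (emb e) := fun x y h => by
  funext i
  exact he i (congrFun h i)

theorem emb_update (e : ∀ i, B i → A i) (y : ∀ i, B i) (i : ι) (b : B i) :
    emb e (Function.update y i b) = Function.update (emb e y) i (e i b) := by
  funext j
  by_cases h : j = i
  · subst h; simp [emb]
  · simp [emb, Function.update_of_ne h]

/-- zero extension of an array -/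
noncomputable def ext (e : ∀ i, B i → A i) (f : (∀ i, B i) → M) : (∀ i, A i) → M :=
  Function.extend (emb e) f 0

theorem ext_emb {e : ∀ i, B i → A i} (he : ∀ i, Function.Injective (e i))
    (f : (∀ i, B i) → M) (y : ∀ i, B i) : ext e f (emb e y) = f y :=
  (emb_injective he).extend_apply _ _ _

theorem ext_of_not {e : ∀ i, B i → A i} (f : (∀ i, B i) → M) {x : ∀ i, A i} {i : ι}
    (h : x i ∉ Set.range (e i)) : ext e f x = 0 := by
  unfold ext
  rw [Function.extend_apply']
  · rfl
  · rintro ⟨y, rfl⟩
    exact h ⟨y i, rfl⟩

/-- local intertwining: `Kp` preserves the support and acts there as `K` -/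
def Twin (e : ∀ i, B i → A i) (i : ι) (Kp : Matrix (A i) (A i) R) (K : Matrix (B i) (B i) R) :
    Prop :=
  (∀ b c, Kp (e i b) (e i c) = K b c) ∧ ∀ a c, a ∉ Set.range (e i) → Kp a (e i c) = 0

theorem Twin.one {e : ∀ i, B i → A i} (he : ∀ i, Function.Injective (e i)) (i : ι) :
    Twin e i (1 : Matrix (A i) (A i) R) 1 := by
  refine ⟨fun b c => ?_, fun a c h => ?_⟩
  · by_cases hbc : b = c
    · subst hbc; simp
    · rw [Matrix.one_apply_ne hbc, Matrix.one_apply_ne fun h => hbc (he i h)]
  · exact Matrix.one_apply_ne fun h' => h ⟨c, h'.symm⟩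

theorem sum_range {e : ∀ i, B i → A i} (he : ∀ i, Function.Injective (e i)) {i : ι}
    {N : Type*} [AddCommMonoid N] (g : A i → N) (hg : ∀ a, a ∉ Set.range (e i) → g a = 0) :
    ∑ a, g a = ∑ b, g (e i b) := by
  classical
  rw [← Finset.sum_image (f := g) (s := univ) (g := e i) fun x _ y _ h => he i h]
  symm
  refine Finset.sum_subset (subset_univ _) fun a _ ha => hg a ?_
  rintro ⟨b, rfl⟩
  exact ha (mem_image_of_mem _ (mem_univ _))

theorem Twin.mul {e : ∀ i, B i → A i} (he : ∀ i, Function.Injective (e i)) {i : ι}
    {Kp Lp : Matrix (A i) (A i) R} {K L : Matrix (B i) (B i) R} (hK : Twin e i Kp K)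
    (hL : Twin e i Lp L) : Twin e i (Kp * Lp) (K * L) := by
  refine ⟨fun b c => ?_, fun a c h => ?_⟩
  · rw [Matrix.mul_apply, Matrix.mul_apply,
      sum_range he (fun a => Kp (e i b) a * Lp a (e i c)) fun a ha => by
        simp only [hL.2 a c ha, mul_zero]]
    exact Finset.sum_congr rfl fun x _ => by rw [hK.1, hL.1]
  · rw [Matrix.mul_apply, sum_range he (fun x => Kp a x * Lp x (e i c)) fun x hx => by
        simp only [hL.2 x c hx, mul_zero]]
    exact Finset.sum_eq_zero fun x _ => by rw [hK.2 a x h, zero_mul]

theorem lift_ext {e : ∀ i, B i → A i} (he : ∀ i, Function.Injective (e i)) {i : ι}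
    {Kp : Matrix (A i) (A i) R} {K : Matrix (B i) (B i) R} (h : Twin e i Kp K)
    (f : (∀ i, B i) → M) : lift i Kp (ext e f) = ext e (lift i K f) := by
  funext x
  rw [lift_apply]
  by_cases hx : ∀ j, x j ∈ Set.range (e j)
  · choose y hy using hx
    obtain rfl : x = emb e y := funext fun j => (hy j).symm
    rw [ext_emb he, lift_apply]
    rw [sum_range he (fun a => Kp (emb e y i) a • ext e f (Function.update (emb e y) i a))]
    · refine Finset.sum_congr rfl fun b _ => ?_
      rw [← emb_update, ext_emb he]
      congr 1
      exact h.1 _ _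
    · intro a ha
      rw [ext_of_not (i := i) f (by rwa [Function.update_self]), smul_zero]
  · push Not at hx
    obtain ⟨j, hj⟩ := hx
    rw [ext_of_not _ hj]
    by_cases hji : j = i
    · subst hji
      rw [sum_range he (fun a => Kp (x j) a • ext e f (Function.update x j a))]
      · exact Finset.sum_eq_zero fun b _ => by rw [h.2 _ _ hj, zero_smul]
      · intro a ha
        rw [ext_of_not (i := j) f (by rwa [Function.update_self]), smul_zero]
    · refine Finset.sum_eq_zero fun a _ => ?_
      rw [ext_of_not (i := j) f (by rwa [Function.update_of_ne hji]), smul_zero]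

theorem lock_ext {e : ∀ i, B i → A i} (he : ∀ i, Function.Injective (e i)) (J : List ι)
    {Kp : ∀ i, Matrix (A i) (A i) R} {K : ∀ i, Matrix (B i) (B i) R}
    (h : ∀ i ∈ J, Twin e i (Kp i) (K i)) (f : (∀ i, B i) → M) :
    lock J Kp (ext e f) = ext e (lock J K f) := by
  induction J with
  | nil => rfl
  | cons j J ih =>
    rw [lock_cons, lock_cons, Module.End.mul_apply, Module.End.mul_apply,
      ih fun i hi => h i (List.mem_cons_of_mem _ hi), lift_ext he (h j List.mem_cons_self)]

/-- multiplication by a function of the whole index -/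
def gdiag {X : Type*} (D : X → R) : Module.End R (X → M) where
  toFun f x := D x • f x
  map_add' f g := by funext x; simp
  map_smul' c f := by
    funext x
    simp only [Pi.smul_apply, RingHom.id_apply]
    exact smul_comm _ _ _

theorem gdiag_apply {X : Type*} (D : X → R) (f : X → M) (x : X) : gdiag D f x = D x • f x := rfl

theorem gdiag_mul {X : Type*} (D D' : X → R) :
    (gdiag (fun x => D x * D' x) : Module.End R (X → M)) = gdiag D * gdiag D' := by
  ext f x
  simp [gdiag_apply, smul_smul]

theorem gdiag_ext {e : ∀ i, B i → A i} (he : ∀ i, Function.Injective (e i))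
    {Dp : (∀ i, A i) → R} {D : (∀ i, B i) → R} (h : ∀ y, Dp (emb e y) = D y)
    (f : (∀ i, B i) → M) : gdiag Dp (ext e f) = ext e (gdiag D f) := by
  funext x
  rw [gdiag_apply]
  by_cases hx : ∀ j, x j ∈ Set.range (e j)
  · choose y hy using hx
    obtain rfl : x = emb e y := funext fun j => (hy j).symm
    rw [ext_emb he, ext_emb he, h, gdiag_apply]
  · push Not at hx
    obtain ⟨j, hj⟩ := hx
    rw [ext_of_not _ hj, ext_of_not _ hj, smul_zero]

theorem lock_diagonal_eq (J : List ι) (D : ∀ i, A i → R) :
    (lock J (fun i => Matrix.diagonal (D i)) : Module.End R ((∀ i, A i) → M)) =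
      gdiag (fun x => (J.map fun i => D i (x i)).prod) := by
  ext f x
  rw [lock_diagonal, gdiag_apply]

/-- full tensor formula -/
theorem lock_univ_apply {s : ℕ} {A : Fin s → Type*} [∀ i, Fintype (A i)]
    [∀ i, DecidableEq (A i)] (K : ∀ i, Matrix (A i) (A i) R) (f : (∀ i, A i) → M)
    (x : ∀ i, A i) :
    lock (List.finRange s) K f x = ∑ y : ∀ i, A i, (∏ i, K i (x i) (y i)) • f y := by
  classical
  -- partial tensor over a nodup list
  have key : ∀ J : List (Fin s), J.Nodup → ∀ (f : (∀ i, A i) → M) (x : ∀ i, A i),
      lock J K f x = ∑ y : ∀ i, A i, (if ∀ i, i ∉ J → y i = x i then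
        (∏ i ∈ J.toFinset, K i (x i) (y i)) • f y else 0) := by
    intro J hJ
    induction J with
    | nil =>
      intro f x
      simp only [lock_nil, Module.End.one_apply, List.not_mem_nil, not_false_eq_true,
        forall_true_left, List.toFinset_nil, Finset.prod_empty, one_smul]
      rw [Finset.sum_eq_single x]
      · simp
      · intro y _ hy
        rw [if_neg]
        intro h; exact hy (funext h)
      · simp
    | cons j J ih =>
      intro f x
      rw [List.nodup_cons] at hJ
      rw [lock_cons, Module.End.mul_apply, lift_apply]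
      simp only [ih hJ.2 f]
      have h1 : ∀ a : A j, K j (x j) a • (∑ y : ∀ i, A i,
          (if ∀ i, i ∉ J → y i = Function.update x j a i then
            (∏ i ∈ J.toFinset, K i (Function.update x j a i) (y i)) • f y else 0)) =
          ∑ y : ∀ i, A i, (if y j = a then (if ∀ i, i ∉ j :: J → y i = x i then
            (∏ i ∈ (j :: J).toFinset, K i (x i) (y i)) • f y else 0) else 0) := by
        intro a
        rw [Finset.smul_sum]
        refine Finset.sum_congr rfl fun y _ => ?_
        by_cases h2 : ∀ i, i ∉ J → y i = Function.update x j a i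
        · have h3 : y j = a := by rw [h2 j hJ.1, Function.update_self]
          have h4 : ∀ i, i ∉ j :: J → y i = x i := by
            intro i hi
            rw [List.mem_cons, not_or] at hi
            rw [h2 i hi.2, Function.update_of_ne hi.1]
          rw [if_pos h2, if_pos h3, if_pos h4, smul_smul]
          congr 1
          rw [List.toFinset_cons, Finset.prod_insert (by simpa using hJ.1), h3]
          congr 1
          refine Finset.prod_congr rfl fun i hi => ?_
          rw [Function.update_of_ne]
          rintro rfl
          exact hJ.1 (by simpa using hi)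
        · rw [if_neg h2, smul_zero]
          symm
          by_cases h3 : y j = a
          · rw [if_pos h3, if_neg]
            intro h4
            apply h2
            intro i hi
            by_cases hij : i = j
            · subst hij; rw [Function.update_self, h3]
            · rw [Function.update_of_ne hij]
              exact h4 i (by simp [hij, hi])
          · rw [if_neg h3]
      rw [Finset.sum_congr rfl fun a _ => h1 a, Finset.sum_comm]
      refine Finset.sum_congr rfl fun y _ => ?_
      rw [Finset.sum_ite_eq univ (y j)]
      simp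
  rw [key _ (List.nodup_finRange s)]
  refine Finset.sum_congr rfl fun y _ => ?_
  rw [if_pos (by intro i hi; exact absurd (List.mem_finRange i) hi)]
  congr 1
  refine Finset.prod_congr ?_ fun _ _ => rfl
  ext i; simp

end Vale.Agent.P338.R3.H282
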