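import Vale.Agent.P338.R3.H282.Step
import Vale.Agent.P338.R3.H282.Pad

/-!
P338-D, module ASM (4): flat arrays `ℕ → M` and arrays on tuples of local positions.
-/

namespace Vale.Agent.P338.R3.H282

open Finset
open Vale.Agent.P338.R3.H955 (mv up dig mv_dig dig_mv mv_lt mv_add mv_congr)

set_option linter.unusedSectionVars false

lemma up_const (c k : ℕ) (s : ℕ) : up (fun _ => c) s k = c ^ k := by
  induction k generalizing s with
  | zero => rfl
  | succ k ih => rw [up, ih, pow_succ, mul_comm]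

lemma mv_sum (q x : ℕ → ℕ) (n : ℕ) : mv q x 0 n = ∑ k ∈ range n, x k * up q 0 k := by
  induction n with
  | zero => simp [mv]
  | succ n ih =>
    rw [mv_add, ih, sum_range_succ, zero_add, mv, mv, mul_zero, add_zero, mul_comm (up q 0 n)]

section enc

variable (G : Geo)

/-- local positions as a function on `ℕ` -/
def pn (p : ∀ _ : Fin G.d, Fin (2 ^ (G.a + 1))) (k : ℕ) : ℕ := if h : k < G.d then p ⟨k, h⟩ else 0

/-- position with local positions `p` and higher selector value `e` -/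
def enc (p : ∀ _ : Fin G.d, Fin (2 ^ (G.a + 1))) (e : ℕ) : ℕ :=
  mv (fun _ => 2 ^ G.a) (fun k => pn G p k % 2 ^ G.a) 0 G.d +
    2 ^ (G.a * G.d) * (mv (fun _ => 2) (fun k => pn G p k / 2 ^ G.a) 0 G.d + 2 ^ G.d * e)

variable {G}

lemma pn_lt (p : ∀ _ : Fin G.d, Fin (2 ^ (G.a + 1))) (k : ℕ) : pn G p k < 2 ^ (G.a + 1) := by
  unfold pn
  split_ifs
  · exact Fin.isLt _
  · positivity

lemma pn_div_lt (p : ∀ _ : Fin G.d, Fin (2 ^ (G.a + 1))) (k : ℕ) : pn G p k / 2 ^ G.a < 2 := by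
  rw [Nat.div_lt_iff_lt_mul (by positivity)]
  have := pn_lt p k
  rw [pow_succ] at this
  omega

lemma mv_lo_lt (p : ∀ _ : Fin G.d, Fin (2 ^ (G.a + 1))) :
    mv (fun _ => 2 ^ G.a) (fun k => pn G p k % 2 ^ G.a) 0 G.d < 2 ^ (G.a * G.d) := by
  have := mv_lt (q := fun _ => 2 ^ G.a) (a := fun k => pn G p k % 2 ^ G.a) (s := 0) (n := G.d)
    fun k _ _ => Nat.mod_lt _ (by positivity)
  rwa [up_const, ← pow_mul] at this

lemma mv_hi_lt (p : ∀ _ : Fin G.d, Fin (2 ^ (G.a + 1))) :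
    mv (fun _ => 2) (fun k => pn G p k / 2 ^ G.a) 0 G.d < 2 ^ G.d := by
  have := mv_lt (q := fun _ => 2) (a := fun k => pn G p k / 2 ^ G.a) (s := 0) (n := G.d)
    fun k _ _ => pn_div_lt p k
  rwa [up_const] at this

lemma enc_div (p : ∀ _ : Fin G.d, Fin (2 ^ (G.a + 1))) (e : ℕ) : G.sv (enc G p e) =
    mv (fun _ => 2) (fun k => pn G p k / 2 ^ G.a) 0 G.d + 2 ^ G.d * e := by
  unfold Geo.sv enc
  rw [Nat.add_mul_div_left _ _ (by positivity), Nat.div_eq_of_lt (mv_lo_lt p), zero_add]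

lemma enc_mod (p : ∀ _ : Fin G.d, Fin (2 ^ (G.a + 1))) (e : ℕ) : enc G p e % 2 ^ (G.a * G.d) =
    mv (fun _ => 2 ^ G.a) (fun k => pn G p k % 2 ^ G.a) 0 G.d := by
  unfold enc
  rw [Nat.add_mul_mod_self_left, Nat.mod_eq_of_lt (mv_lo_lt p)]

lemma dv_mod (u : ℕ) {i : ℕ} (hi : i < G.d) : G.dv (u % 2 ^ (G.a * G.d)) i = G.dv u i := by
  unfold Geo.dv
  obtain ⟨r, hr⟩ : ∃ r, G.d = i + 1 + r := ⟨G.d - i - 1, by omega⟩
  have h1 : 2 ^ (G.a * G.d) = 2 ^ (G.a * i) * (2 ^ G.a * 2 ^ (G.a * r)) := by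
    rw [← pow_add, ← pow_add, hr]
    congr 1
    ring
  rw [h1, Nat.mod_mul_right_div_self, Nat.mod_mul_right_mod]

lemma dv_enc (p : ∀ _ : Fin G.d, Fin (2 ^ (G.a + 1))) (e : ℕ) {i : ℕ} (hi : i < G.d) :
    G.dv (enc G p e) i = pn G p i % 2 ^ G.a := by
  rw [← dv_mod _ hi, enc_mod]
  have := dig_mv (q := fun _ => 2 ^ G.a) (a := fun k => pn G p k % 2 ^ G.a) (n := G.d)
    (fun k _ => Nat.mod_lt _ (by positivity)) hi
  unfold dig at this
  rw [up_const, ← pow_mul] at this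
  exact this

lemma testBit_iff (u k : ℕ) : u.testBit k = true ↔ u / 2 ^ k % 2 = 1 := by
  rw [Nat.testBit_eq_decide_div_mod_eq, decide_eq_true_iff]

lemma rb_eq (u i : ℕ) : G.rb u i = (G.sv u).testBit i := by
  unfold Geo.rb Geo.sv
  rw [Nat.testBit_div_two_pow]
  congr 1
  ring

lemma rb_enc (p : ∀ _ : Fin G.d, Fin (2 ^ (G.a + 1))) (e : ℕ) {i : ℕ} (hi : i < G.d) :
    G.rb (enc G p e) i = decide (pn G p i / 2 ^ G.a = 1) := by
  rw [rb_eq, enc_div, Nat.testBit_eq_decide_div_mod_eq]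
  congr 1
  rw [eq_iff_iff]
  obtain ⟨r, hr⟩ : ∃ r, G.d = i + 1 + r := ⟨G.d - i - 1, by omega⟩
  have h1 := dig_mv (q := fun _ => 2) (a := fun k => pn G p k / 2 ^ G.a) (n := G.d)
    (fun k _ => pn_div_lt p k) hi
  unfold dig at h1
  rw [up_const] at h1
  have h2 : (mv (fun _ => 2) (fun k => pn G p k / 2 ^ G.a) 0 G.d + 2 ^ G.d * e) / 2 ^ i % 2 =
      mv (fun _ => 2) (fun k => pn G p k / 2 ^ G.a) 0 G.d / 2 ^ i % 2 := by
    have h3 : 2 ^ G.d * e = 2 ^ i * (2 * (2 ^ r * e)) := by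
      rw [hr, pow_add, pow_add]; ring
    rw [h3, Nat.add_mul_div_left _ _ (by positivity), Nat.add_mul_mod_self_left]
  rw [h2, h1]

lemma lp_enc (p : ∀ _ : Fin G.d, Fin (2 ^ (G.a + 1))) (e : ℕ) {i : ℕ} (hi : i < G.d) :
    G.lp (enc G p e) i = pn G p i := by
  unfold Geo.lp
  rw [rb_enc p e hi, dv_enc p e hi]
  have h1 := pn_div_lt p i
  have h2 := Nat.div_add_mod (pn G p i) (2 ^ G.a)
  by_cases h : pn G p i / 2 ^ G.a = 1
  · rw [h, mul_one] at h2
    simp only [h, decide_true, if_true]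
    exact h2
  · have h3 : pn G p i / 2 ^ G.a = 0 :=
      Nat.lt_one_iff.1 (lt_of_le_of_ne (Nat.lt_succ_iff.1 h1) h)
    rw [h3, mul_zero] at h2
    simp only [h, decide_false]
    exact h2

lemma lp_lt (u i : ℕ) : G.lp u i < 2 ^ (G.a + 1) := by
  unfold Geo.lp Geo.dv
  have : u / 2 ^ (G.a * i) % 2 ^ G.a < 2 ^ G.a := Nat.mod_lt _ (by positivity)
  rw [pow_succ]
  split_ifs <;> omega

lemma lp_mod (u i : ℕ) : G.lp u i % 2 ^ G.a = G.dv u i := by
  unfold Geo.lp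
  have h : G.dv u i < 2 ^ G.a := Nat.mod_lt _ (by positivity)
  split_ifs
  · rw [Nat.add_mod_left, Nat.mod_eq_of_lt h]
  · rw [zero_add, Nat.mod_eq_of_lt h]

lemma lp_div (u i : ℕ) : G.lp u i / 2 ^ G.a = if G.rb u i then 1 else 0 := by
  unfold Geo.lp
  have h : G.dv u i < 2 ^ G.a := Nat.mod_lt _ (by positivity)
  split_ifs
  · rw [Nat.add_div_left _ (by positivity), Nat.div_eq_of_lt h]
  · rw [zero_add, Nat.div_eq_of_lt h]

/-- the tuple of local positions of `u` -/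
def tup (G : Geo) (u : ℕ) : ∀ _ : Fin G.d, Fin (2 ^ (G.a + 1)) := fun i => ⟨G.lp u i, lp_lt u i⟩

lemma enc_tup (u : ℕ) : enc G (tup G u) (G.sv u / 2 ^ G.d) = u := by
  unfold enc
  have h1 : mv (fun _ => 2 ^ G.a) (fun k => pn G (tup G u) k % 2 ^ G.a) 0 G.d =
      u % 2 ^ (G.a * G.d) := by
    rw [mv_congr (b := dig (fun _ => 2 ^ G.a) u), mv_dig, up_const, ← pow_mul]
    intro k _ hk
    rw [zero_add] at hk
    simp only [pn, hk, dif_pos, tup, lp_mod]
    unfold Geo.dv dig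
    rw [up_const, ← pow_mul]
  have h2 : mv (fun _ => 2) (fun k => pn G (tup G u) k / 2 ^ G.a) 0 G.d =
      G.sv u % 2 ^ G.d := by
    rw [mv_congr (b := dig (fun _ => 2) (G.sv u)), mv_dig, up_const]
    intro k _ hk
    rw [zero_add] at hk
    simp only [pn, hk, dif_pos, tup, lp_div, rb_eq]
    unfold dig
    rw [up_const]
    by_cases h : (G.sv u).testBit k
    · rw [if_pos h]
      exact ((testBit_iff _ _).1 h).symm
    · rw [if_neg h]
      have : ¬ (G.sv u / 2 ^ k % 2 = 1) := fun h' => h ((testBit_iff _ _).2 h')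
      show (0 : ℕ) = G.sv u / 2 ^ k % 2
      omega
  rw [h1, h2, Nat.mod_add_div]
  unfold Geo.sv
  rw [Nat.mod_add_div]

/-! ### changing one local position -/

lemma pn_update (p : ∀ _ : Fin G.d, Fin (2 ^ (G.a + 1))) (i : Fin G.d) (b : Fin (2 ^ (G.a + 1)))
    (k : ℕ) : pn G (Function.update p i b) k = if k = i then (b : ℕ) else pn G p k := by
  unfold pn
  by_cases hk : k < G.d
  · rw [dif_pos hk, dif_pos hk]
    by_cases h : k = i
    · subst h
      simp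
    · rw [if_neg h, Function.update_of_ne]
      intro h'
      exact h (by rw [← h'])
  · rw [dif_neg hk, dif_neg hk, if_neg]
    rintro rfl
    exact hk i.2

lemma mv_upd (q x : ℕ → ℕ) {n i : ℕ} (hi : i < n) (y : ℕ) :
    mv q (fun k => if k = i then y else x k) 0 n + x i * up q 0 i = mv q x 0 n + y * up q 0 i := by
  rw [mv_sum, mv_sum, ← Finset.add_sum_erase _ _ (mem_range.2 hi),
    ← Finset.add_sum_erase (range n) (fun k => x k * up q 0 k) (mem_range.2 hi)]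
  rw [if_pos rfl]
  have : ∑ k ∈ (range n).erase i, (if k = i then y else x k) * up q 0 k =
      ∑ k ∈ (range n).erase i, x k * up q 0 k :=
    Finset.sum_congr rfl fun k hk => by rw [if_neg (Finset.ne_of_mem_erase hk)]
  rw [this]
  ring

lemma enc_update (p : ∀ _ : Fin G.d, Fin (2 ^ (G.a + 1))) (e : ℕ) (i : Fin G.d)
    (b : Fin (2 ^ (G.a + 1))) :
    enc G (Function.update p i b) e + ((p i : ℕ) % 2 ^ G.a * 2 ^ (G.a * i) +
      (p i : ℕ) / 2 ^ G.a * 2 ^ (G.a * G.d + i)) =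
    enc G p e + ((b : ℕ) % 2 ^ G.a * 2 ^ (G.a * i) + (b : ℕ) / 2 ^ G.a * 2 ^ (G.a * G.d + i)) := by
  unfold enc
  have h1 : (fun k => pn G (Function.update p i b) k % 2 ^ G.a) =
      fun k => if k = (i : ℕ) then (b : ℕ) % 2 ^ G.a else pn G p k % 2 ^ G.a := by
    funext k
    rw [pn_update]
    split_ifs <;> rfl
  have h2 : (fun k => pn G (Function.update p i b) k / 2 ^ G.a) =
      fun k => if k = (i : ℕ) then (b : ℕ) / 2 ^ G.a else pn G p k / 2 ^ G.a := by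
    funext k
    rw [pn_update]
    split_ifs <;> rfl
  rw [h1, h2]
  have h3 := mv_upd (fun _ => 2 ^ G.a) (fun k => pn G p k % 2 ^ G.a) i.2 ((b : ℕ) % 2 ^ G.a)
  have h4 := mv_upd (fun _ => 2) (fun k => pn G p k / 2 ^ G.a) i.2 ((b : ℕ) / 2 ^ G.a)
  have h5 : pn G p i = p i := by simp [pn]
  rw [up_const, ← pow_mul, h5] at h3
  rw [up_const, h5] at h4
  have hpow : 2 ^ (G.a * G.d + (i : ℕ)) = 2 ^ (G.a * G.d) * 2 ^ (i : ℕ) := pow_add _ _ _
  rw [hpow]
  generalize mv (fun _ => 2 ^ G.a) (fun k => if k = (i : ℕ) then (b : ℕ) % 2 ^ G.a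
    else pn G p k % 2 ^ G.a) 0 G.d = A at *
  generalize mv (fun _ => 2) (fun k => if k = (i : ℕ) then (b : ℕ) / 2 ^ G.a
    else pn G p k / 2 ^ G.a) 0 G.d = B at *
  generalize mv (fun _ => 2 ^ G.a) (fun k => pn G p k % 2 ^ G.a) 0 G.d = A' at *
  generalize mv (fun _ => 2) (fun k => pn G p k / 2 ^ G.a) 0 G.d = B' at *
  linear_combination h3 + 2 ^ (G.a * G.d) * h4

lemma testBit_enc (p : ∀ _ : Fin G.d, Fin (2 ^ (G.a + 1))) (e : ℕ) (i : Fin G.d) {t : ℕ}
    (ht : t ≤ G.a) : (enc G p e).testBit (G.bp t i) = (p i : ℕ).testBit t := by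
  have h5 : pn G p i = p i := by simp [pn]
  unfold Geo.bp
  split_ifs with h
  · have h1 : (G.dv (enc G p e) i).testBit t = (enc G p e).testBit (G.a * i + t) := by
      unfold Geo.dv
      rw [Nat.testBit_mod_two_pow, Nat.testBit_div_two_pow]
      simp [h, add_comm]
    rw [← h1, dv_enc p e i.2, h5, Nat.testBit_mod_two_pow]
    simp [h]
  · have h1 : t = G.a := by omega
    subst h1
    have h2 := rb_enc p e i.2
    unfold Geo.rb at h2
    rw [h2, h5, Nat.testBit_eq_decide_div_mod_eq]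
    have h3 := pn_div_lt p i
    rw [h5] at h3
    congr 1
    rw [Nat.mod_eq_of_lt h3]

lemma div_mod_add {p t a : ℕ} (hp : p < 2 ^ (a + 1)) (ht : t ≤ a) (h : p.testBit t = false) :
    p + 2 ^ t < 2 ^ (a + 1) ∧
    ∀ c i D : ℕ, (p + 2 ^ t) % 2 ^ a * 2 ^ (a * i) + (p + 2 ^ t) / 2 ^ a * 2 ^ (a * D + i) + c =
      p % 2 ^ a * 2 ^ (a * i) + p / 2 ^ a * 2 ^ (a * D + i) + c +
        2 ^ (if t < a then a * i + t else a * D + i) := by
  have h0 : p / 2 ^ t % 2 = 0 := by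
    have : ¬ (p / 2 ^ t % 2 = 1) := fun h' => by
      rw [(testBit_iff _ _).2 h'] at h
      exact Bool.noConfusion h
    omega
  have key : ∀ m, t < m → p % 2 ^ m + 2 ^ t < 2 ^ m := by
    intro m hm
    obtain ⟨r, rfl⟩ : ∃ r, m = t + 1 + r := ⟨m - t - 1, by omega⟩
    have h1 : p % 2 ^ (t + 1 + r) = p % 2 ^ t + 2 ^ t * (p / 2 ^ t % 2 ^ (1 + r)) := by
      rw [show t + 1 + r = t + (1 + r) by ring, pow_add, Nat.mod_mul]
    have h2 : p / 2 ^ t % 2 ^ (1 + r) % 2 = 0 := by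
      rw [Nat.mod_mod_of_dvd _ (dvd_pow_self 2 (by omega))]
      exact h0
    have h3 : p / 2 ^ t % 2 ^ (1 + r) < 2 ^ (1 + r) := Nat.mod_lt _ (by positivity)
    have h4 : p / 2 ^ t % 2 ^ (1 + r) + 2 ≤ 2 ^ (1 + r) := by
      have : 2 ^ (1 + r) % 2 = 0 := by rw [pow_add, pow_one, Nat.mul_mod_right]
      omega
    have h5 : p % 2 ^ t < 2 ^ t := Nat.mod_lt _ (by positivity)
    rw [h1]
    calc p % 2 ^ t + 2 ^ t * (p / 2 ^ t % 2 ^ (1 + r)) + 2 ^ t
        < 2 ^ t + 2 ^ t * (p / 2 ^ t % 2 ^ (1 + r)) + 2 ^ t := by omega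
      _ = 2 ^ t * (p / 2 ^ t % 2 ^ (1 + r) + 2) := by ring
      _ ≤ 2 ^ t * 2 ^ (1 + r) := Nat.mul_le_mul_left _ h4
      _ = 2 ^ (t + 1 + r) := by rw [← pow_add]; congr 1; ring
  refine ⟨?_, fun c i D => ?_⟩
  · have := key (a + 1) (by omega)
    rwa [Nat.mod_eq_of_lt hp] at this
  · by_cases h1 : t < a
    · rw [if_pos h1]
      have h2 := key a h1
      have h3 := Nat.div_add_mod p (2 ^ a)
      have h4 : (p + 2 ^ t) % 2 ^ a = p % 2 ^ a + 2 ^ t := by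
        conv_lhs => rw [← h3, add_assoc, Nat.mul_add_mod, Nat.mod_eq_of_lt h2]
      have h5 : (p + 2 ^ t) / 2 ^ a = p / 2 ^ a := by
        conv_lhs => rw [← h3, add_assoc, Nat.mul_add_div (by positivity), Nat.div_eq_of_lt h2,
          add_zero]
      rw [h4, h5, pow_add]
      ring
    · rw [if_neg h1]
      have h2 : t = a := by omega
      subst h2
      rw [Nat.add_mod_right, Nat.add_div_right _ (by positivity)]
      ring

lemma enc_add (p : ∀ _ : Fin G.d, Fin (2 ^ (G.a + 1))) (e : ℕ) (i : Fin G.d) {t : ℕ}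
    (ht : t ≤ G.a) (h : (p i : ℕ).testBit t = false) :
    enc G (Function.update p i ⟨p i + 2 ^ t, (div_mod_add (p i).2 ht h).1⟩) e =
      enc G p e + 2 ^ (G.bp t i) := by
  have h1 := enc_update p e i ⟨p i + 2 ^ t, (div_mod_add (p i).2 ht h).1⟩
  have h2 := (div_mod_add (p i).2 ht h).2 (enc G p e) i G.d
  unfold Geo.bp
  simp only at h1
  omega

end enc

end Vale.Agent.P338.R3.H282
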