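import Mathlib

/-!
P338-D, module ASM (1): operators acting on one coordinate of an array indexed by a product,
and the lockstep principle: a list of local steps, executed on all coordinates of a list `J`
at the same time, is the tensor product of the local products.
-/

namespace Vale.Agent.P338.R3.H282

open Finset

set_option linter.unusedSectionVars false

variable {ι : Type*} [DecidableEq ι] {A : ι → Type*} [∀ i, Fintype (A i)]
  [∀ i, DecidableEq (A i)]
variable {R M : Type*} [CommRing R] [AddCommGroup M] [Module R M]

/-- the matrix `K` acting on the coordinate `i` of an array -/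
def lift (i : ι) (K : Matrix (A i) (A i) R) : Module.End R ((∀ i, A i) → M) where
  toFun f x := ∑ a : A i, K (x i) a • f (Function.update x i a)
  map_add' f g := by
    funext x; simp [Finset.sum_add_distrib]
  map_smul' c f := by
    funext x
    simp only [Pi.smul_apply, RingHom.id_apply, Finset.smul_sum]
    exact Finset.sum_congr rfl fun a _ => smul_comm _ _ _

theorem lift_apply (i : ι) (K : Matrix (A i) (A i) R) (f : (∀ i, A i) → M) (x : ∀ i, A i) :
    lift i K f x = ∑ a : A i, K (x i) a • f (Function.update x i a) := rfl

theorem lift_mul (i : ι) (K L : Matrix (A i) (A i) R) :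
    (lift i (K * L) : Module.End R ((∀ i, A i) → M)) = lift i K * lift i L := by
  ext f x
  simp only [lift_apply, Module.End.mul_apply, Matrix.mul_apply, Finset.sum_smul,
    Finset.smul_sum, smul_smul, Function.update_self, Function.update_idem]
  exact Finset.sum_comm

theorem lift_one (i : ι) : (lift i (1 : Matrix (A i) (A i) R) : Module.End R ((∀ i, A i) → M)) = 1 := by
  ext f x
  simp [lift_apply, Matrix.one_apply, ite_smul]

theorem lift_comm {i j : ι} (h : i ≠ j) (K : Matrix (A i) (A i) R) (L : Matrix (A j) (A j) R) :
    (lift i K * lift j L : Module.End R ((∀ i, A i) → M)) = lift j L * lift i K := by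
  ext f x
  simp only [lift_apply, Module.End.mul_apply, Finset.smul_sum, smul_smul,
    Function.update_of_ne h, Function.update_of_ne h.symm]
  rw [Finset.sum_comm]
  refine Finset.sum_congr rfl fun b _ => Finset.sum_congr rfl fun a _ => ?_
  rw [mul_comm, Function.update_comm h]

theorem lift_diagonal (i : ι) (D : A i → R) (f : (∀ i, A i) → M) (x : ∀ i, A i) :
    lift i (Matrix.diagonal D) f x = D (x i) • f x := by
  simp [lift_apply, Matrix.diagonal_apply, ite_smul]

theorem lift_smul (i : ι) (c : R) (K : Matrix (A i) (A i) R) :
    (lift i (c • K) : Module.End R ((∀ i, A i) → M)) = c • lift i K := by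
  ext f x
  simp [lift_apply, Finset.smul_sum, smul_smul]

/-- the matrices `K i` acting on all coordinates of the list `J` -/
def lock (J : List ι) (K : ∀ i, Matrix (A i) (A i) R) : Module.End R ((∀ i, A i) → M) :=
  (J.map fun i => lift i (K i)).prod

theorem lock_nil (K : ∀ i, Matrix (A i) (A i) R) :
    (lock [] K : Module.End R ((∀ i, A i) → M)) = 1 := rfl

theorem lock_cons (i : ι) (J : List ι) (K : ∀ i, Matrix (A i) (A i) R) :
    (lock (i :: J) K : Module.End R ((∀ i, A i) → M)) = lift i (K i) * lock J K := by
  simp [lock]

theorem lift_lock_comm {i : ι} {J : List ι} (h : i ∉ J) (K : Matrix (A i) (A i) R)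
    (L : ∀ i, Matrix (A i) (A i) R) :
    (lift i K * lock J L : Module.End R ((∀ i, A i) → M)) = lock J L * lift i K := by
  induction J with
  | nil => simp [lock_nil]
  | cons j J ih =>
    rw [List.mem_cons, not_or] at h
    rw [lock_cons, ← mul_assoc, lift_comm h.1, mul_assoc, ih h.2, mul_assoc]

theorem lock_mul {J : List ι} (h : J.Nodup) (K L : ∀ i, Matrix (A i) (A i) R) :
    (lock J (fun i => K i * L i) : Module.End R ((∀ i, A i) → M)) = lock J K * lock J L := by
  induction J with
  | nil => simp [lock_nil]
  | cons j J ih =>
    rw [List.nodup_cons] at h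
    rw [lock_cons, lock_cons, lock_cons, ih h.2, lift_mul]
    rw [mul_assoc, mul_assoc, ← mul_assoc (lift j (L j)), lift_lock_comm h.1, mul_assoc]

theorem lock_one (J : List ι) :
    (lock J (fun _ => 1) : Module.End R ((∀ i, A i) → M)) = 1 := by
  induction J with
  | nil => rfl
  | cons j J ih => rw [lock_cons, ih, lift_one, one_mul]

/-- the lockstep principle -/
theorem lock_prod {J : List ι} (h : J.Nodup) {σ : Type*} (l : List σ)
    (loc : σ → ∀ i, Matrix (A i) (A i) R) :
    (lock J (fun i => (l.map fun s => loc s i).prod) : Module.End R ((∀ i, A i) → M)) =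
      (l.map fun s => lock J (loc s)).prod := by
  induction l with
  | nil => simp [lock_one]
  | cons s l ih =>
    simp only [List.map_cons, List.prod_cons]
    rw [lock_mul h, ih]

theorem lock_diagonal (J : List ι) (D : ∀ i, A i → R) (f : (∀ i, A i) → M) (x : ∀ i, A i) :
    lock J (fun i => Matrix.diagonal (D i)) f x = (J.map fun i => D i (x i)).prod • f x := by
  induction J generalizing f with
  | nil => simp [lock_nil]
  | cons j J ih =>
    rw [lock_cons, Module.End.mul_apply, lift_diagonal, ih, smul_smul, List.map_cons,
      List.prod_cons]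

end Vale.Agent.P338.R3.H282
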