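import Vale.Agent.P338.R3.H282.Char
import Vale.Agent.P338.R3.H715.WAll

/-!
P338-D, module ASM (8): the exact run of the schedule is the cyclic product.
-/

namespace Vale.Agent.P338.R3.H282

open Finset
open Vale.Agent.P338.R3.H352 (zt zt_add zt_mul_self zt_congr zt_zero)
open Vale.Agent.P338.R3.H955 (mv mv_congr theta ivp up digT thetaT dig mv_dig dig_lt up_succ)
open Vale.Agent.P338.R3.H715 (Wk opp cW chW lock_Wk_apply lock_Wk_all_sq Rel.W_all)

set_option linter.unusedSectionVars false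

variable {δ : Type} {G : Geo} [∀ k, NeZero (G.q k)]

/-- the shears of the forward schedule -/
def crtF {δ : Type} (G : Geo) (prog : List (Ly δ)) : List (St δ) :=
  (List.range' 1 (G.gs - 1)).reverse.flatMap (G.stA prog false) ++
  (List.range' 1 G.t).reverse.flatMap (G.stB prog false)

/-- the shears of the backward schedule -/
def crtB {δ : Type} (G : Geo) (prog : List (Ly δ)) : List (St δ) :=
  (List.range' 1 G.t).flatMap (G.stB prog true) ++
  (List.range' 1 (G.gs - 1)).flatMap (G.stA prog true)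

/-- what the shears do to zero padded arrays; `re` is the index map -/
structure CrtOK {𝔸 : Type*} [AddCommGroup 𝔸] [Module ℂ 𝔸] (G : Geo) [∀ k, NeZero (G.q k)]
    (hq : ∀ i : Fin G.d, G.q i ≤ 2 ^ G.a) (lv : ℕ → δ → ℕ → ℂ) (prog : List (Ly δ))
    (re re' : (∀ i : Fin G.d, Bool × ZMod (G.q i)) → (∀ i : Fin G.d, Bool × ZMod (G.q i))) :
    Prop where
  fwd : ∀ (F : ℕ → 𝔸) (g : ℕ → (∀ i : Fin G.d, Bool × ZMod (G.q i)) → 𝔸), Rel hq F g →
    Rel hq (exs G lv (crtF G prog) F) (fun e y => g e (re y))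
  bwd : ∀ (F : ℕ → 𝔸) (g : ℕ → (∀ i : Fin G.d, Bool × ZMod (G.q i)) → 𝔸), Rel hq F g →
    Rel hq (exs G lv (crtB G prog) F) (fun e y => g e (re' y))
  inv : ∀ y, re (re' y) = y
  digits : ∀ (ρ : Fin G.d → Bool) (j : ℕ), j < G.N →
    re (fun i => (ρ i, thetaT G.q G.iv G.d j i)) = fun i => (ρ i, digT G.q G.d j i)

section theta

variable {re : (∀ i : Fin G.d, Bool × ZMod (G.q i)) → (∀ i : Fin G.d, Bool × ZMod (G.q i))}

lemma dval_digT {j : ℕ} (hj : j < G.N) : dval G (digT G.q G.d j) = j := by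
  unfold dval
  rw [mv_congr (b := dig G.q j), mv_dig]
  · exact Nat.mod_eq_of_lt hj
  · intro k _ hk
    rw [zero_add] at hk
    simp only [hk, dif_pos, digT]
    rw [ZMod.val_cast_of_lt dig_lt]

lemma up_prod (q : ℕ → ℕ) (n : ℕ) : up q 0 n = ∏ i ∈ range n, q i := by
  induction n with
  | zero => rfl
  | succ n ih => rw [up_succ, ih, prod_range_succ, zero_add]

lemma card_tup : Fintype.card (∀ i : Fin G.d, ZMod (G.q i)) = G.N := by
  rw [Fintype.card_pi]
  simp only [ZMod.card]
  unfold Geo.N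
  rw [up_prod, Fin.prod_univ_eq_prod_range (fun i => G.q i)]

theorem theta_bij (hdig : ∀ (ρ : Fin G.d → Bool) (j : ℕ), j < G.N →
    re (fun i => (ρ i, thetaT G.q G.iv G.d j i)) = fun i => (ρ i, digT G.q G.d j i)) :
    Function.Bijective (fun j : Fin G.N => thetaT G.q G.iv G.d j) := by
  rw [Fintype.bijective_iff_injective_and_card]
  refine ⟨fun i j h => ?_, by rw [card_tup, Fintype.card_fin]⟩
  apply Fin.ext
  have h1 := hdig (fun _ => false) i i.2
  have h2 := hdig (fun _ => false) j j.2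
  simp only at h
  rw [h] at h1
  rw [h1] at h2
  rw [← dval_digT i.2, ← dval_digT j.2]
  congr 1
  funext k
  exact congrArg Prod.snd (congrFun h2 k)

theorem sum_theta {M : Type*} [AddCommMonoid M]
    (hdig : ∀ (ρ : Fin G.d → Bool) (j : ℕ), j < G.N →
    re (fun i => (ρ i, thetaT G.q G.iv G.d j i)) = fun i => (ρ i, digT G.q G.d j i))
    (F : (∀ i : Fin G.d, ZMod (G.q i)) → M) :
    ∑ y, F y = ∑ j ∈ range G.N, F (thetaT G.q G.iv G.d j) := by
  rw [← (theta_bij hdig).sum_comp F, Fin.sum_univ_eq_sum_range (fun j => F (thetaT G.q G.iv G.d j))]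

lemma thetaT_apply (j : ℕ) (i : Fin G.d) : thetaT G.q G.iv G.d j i =
    ((ivp G.iv i 0 i : ℕ) : ZMod (G.q i)) * (j : ZMod (G.q i)) := by
  unfold thetaT theta
  rw [ZMod.natCast_mod]
  push_cast
  rfl

lemma thetaT_mod (j : ℕ) : thetaT G.q G.iv G.d (j % G.N) = thetaT G.q G.iv G.d j := by
  funext i
  rw [thetaT_apply, thetaT_apply]
  congr 1
  have h1 := Nat.div_add_mod j G.N
  have h2 : ((G.N : ℕ) : ZMod (G.q i)) = 0 := by
    rw [ZMod.natCast_eq_zero_iff]
    exact q_dvd_up i.2
  conv_rhs => rw [← h1]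
  push_cast
  rw [h2]
  ring

end theta

section fwd

variable {M : Type*} [AddCommGroup M] [Module ℂ M]
variable {re : (∀ i : Fin G.d, Bool × ZMod (G.q i)) → (∀ i : Fin G.d, Bool × ZMod (G.q i))}

/-- the residue frequencies of the character at `x` -/
def wfr (G : Geo) (x : ∀ i : Fin G.d, Bool × ZMod (G.q i)) (i : Fin G.d) : ZMod (G.q i) :=
  (if (x i).1 then (x i).2 else -(x i).2) * ((ivp G.iv i 0 i : ℕ) : ZMod (G.q i))

/-- the selector frequency of the character at `x`, `e` -/
def kfr (G : Geo) (e : ℕ) (x : ∀ i : Fin G.d, Bool × ZMod (G.q i)) : ℕ :=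
  kap G.s (sg G (fun i => !(x i).1) e) 0

lemma chW_theta (x : ∀ i : Fin G.d, Bool × ZMod (G.q i)) (j : ℕ) :
    chW x (thetaT G.q G.iv G.d j) = ∏ i : Fin G.d,
      ZMod.stdAddChar (wfr G x i * (j : ZMod (G.q i))) := by
  unfold chW wfr
  refine Finset.prod_congr rfl fun i _ => ?_
  congr 1
  rw [thetaT_apply]
  split_ifs <;> ring

/-- the forward transform is a family of characters -/
theorem W_phi (hdig : ∀ (ρ : Fin G.d → Bool) (j : ℕ), j < G.N →
    re (fun i => (ρ i, thetaT G.q G.iv G.d j i)) = fun i => (ρ i, digT G.q G.d j i))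
    (f : ℕ → M) (e : ℕ) (x : ∀ i : Fin G.d, Bool × ZMod (G.q i)) :
    lock (List.finRange G.d) (fun i => Wk G.q i) (fun y => phi G f e (re y)) x =
      cW x • ∑ j ∈ range (tot G), chr G (kfr G e x) (wfr G x) j • f j := by
  rw [lock_Wk_apply, sum_theta hdig]
  congr 1
  have h1 : ∀ j0 ∈ range G.N, chW x (thetaT G.q G.iv G.d j0) •
      phi G f e (re (opp x (thetaT G.q G.iv G.d j0))) = ∑ j ∈ range (tot G),
        if j % G.N = j0 then chr G (kfr G e x) (wfr G x) j • f j else 0 := by
    intro j0 hj0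
    rw [mem_range] at hj0
    have h2 : re (opp x (thetaT G.q G.iv G.d j0)) =
        fun i => (!(x i).1, digT G.q G.d j0 i) := hdig (fun i => !(x i).1) j0 hj0
    rw [h2]
    unfold phi
    simp only
    have h3 : dval G (fun i => digT G.q G.d j0 i) = j0 := dval_digT hj0
    rw [h3, Finset.smul_sum]
    refine Finset.sum_congr rfl fun j _ => ?_
    split_ifs with hj
    · rw [smul_smul]
      congr 1
      rw [← hj, thetaT_mod, chW_theta]
      unfold chr kfr
      ring
    · rw [smul_zero]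
  rw [Finset.sum_congr rfl h1, Finset.sum_comm]
  refine Finset.sum_congr rfl fun j _ => ?_
  rw [Finset.sum_ite_eq, if_pos]
  rw [mem_range]
  exact Nat.mod_lt _ N_pos

end fwd

section main

variable {𝔸 : Type*} [Ring 𝔸] [Algebra ℂ 𝔸]
variable {hq : ∀ i : Fin G.d, G.q i ≤ 2 ^ G.a} {lv : ℕ → δ → ℕ → ℂ} {prog : List (Ly δ)}
variable {re re' : (∀ i : Fin G.d, Bool × ZMod (G.q i)) → (∀ i : Fin G.d, Bool × ZMod (G.q i))}

lemma fwd_eq (prog : List (Ly δ)) : G.fwd prog =
    (List.range G.s).reverse.flatMap G.selF ++ (crtF G prog ++ G.W prog (List.range G.d)) := by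
  simp [Geo.fwd, crtF, List.append_assoc]

lemma bwd_eq (prog : List (Ly δ)) : G.bwd prog = .dg .corr :: (G.W prog (List.range G.d) ++
    (crtB G prog ++ (List.range G.s).flatMap G.selI)) := by
  simp [Geo.bwd, crtB, List.append_assoc]

/-- forward schedule on a loaded array, padded form -/
theorem rel_fwd (hds : G.d ≤ G.s) (hp : ∀ l ∈ prog, l.ok G.a)
    (ht : ∀ i : Fin G.d, Twin (A := fun _ : Fin G.d => Fin (2 ^ (G.a + 1))) (em hq) i
      (pmat G.a (lv (G.q i)) prog) (Wk G.q i))
    (hC : CrtOK (𝔸 := 𝔸) G hq lv prog re re') (f : ℕ → 𝔸) :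
    Rel hq (exs G lv (G.fwd prog) (load G f)) (fun e x =>
      cW x • ∑ j ∈ range (tot G), chr G (kfr G e x) (wfr G x) j • f j) := by
  have h1 := rel_phi (hq := hq) hds lv f
  have h2 := hC.fwd _ _ h1
  have h3 := Rel.W_all hp ht h2
  rw [fwd_eq, exs_append, exs_append]
  intro e he
  rw [h3 e he]
  congr 1
  funext x
  exact W_phi hC.digits f e x

/-- the steps after the correction invert the forward schedule -/
theorem rest_fwd (hds : G.d ≤ G.s) (hp : ∀ l ∈ prog, l.ok G.a)
    (ht : ∀ i : Fin G.d, Twin (A := fun _ : Fin G.d => Fin (2 ^ (G.a + 1))) (em hq) i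
      (pmat G.a (lv (G.q i)) prog) (Wk G.q i))
    (hC : CrtOK (𝔸 := 𝔸) G hq lv prog re re') (f : ℕ → 𝔸) {u : ℕ}
    (hu : u < 2 ^ (G.a * G.d + G.s)) :
    exs G lv (G.W prog (List.range G.d) ++ (crtB G prog ++ (List.range G.s).flatMap G.selI))
      (exs G lv (G.fwd prog) (load G f)) u = ((-1 : ℂ) ^ G.d * 2 ^ G.s) • load G f u := by
  have h1 := rel_phi (hq := hq) hds lv f
  have h2 := hC.fwd _ _ h1
  have h3 := Rel.W_all hp ht h2
  have h4 := Rel.W_all hp ht h3
  have h5 := hC.bwd _ _ h4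
  have h6 : Rel hq (exs G lv (crtB G prog) (exs G lv (G.W prog (List.range G.d))
      (exs G lv (G.fwd prog) (load G f)))) (fun e x => (-1 : ℂ) ^ G.d • phi G f e x) := by
    rw [fwd_eq, exs_append, exs_append]
    intro e he
    rw [h5 e he]
    congr 1
    funext x
    have h7 := congrFun (lock_Wk_all_sq (D := G.d) (q := G.q) (fun y => phi G f e (re y))) (re' x)
    refine h7.trans ?_
    simp only [Pi.smul_apply, hC.inv]
  -- flat form below `2 ^ K`
  have h8 : ∀ v < 2 ^ (G.a * G.d + G.s), exs G lv (crtB G prog) (exs G lv (G.W prog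
      (List.range G.d)) (exs G lv (G.fwd prog) (load G f))) v = (-1 : ℂ) ^ G.d •
        exs G lv ((List.range G.s).reverse.flatMap G.selF) (load G f) v := by
    intro v hv
    rw [h6.apply hds hv, h1.apply hds hv]
    split_ifs
    · rfl
    · rw [smul_zero]
  rw [exs_append, exs_append]
  rw [exs_congr G lv (K := G.a * G.d + G.s) ?_ h8 u hu, exs_smul, selIs_selFs]
  · show (-1 : ℂ) ^ G.d • ((2 : ℂ) ^ G.s • load G f u) = _
    rw [smul_smul]
  intro st hst
  rw [List.mem_flatMap] at hst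
  obtain ⟨i, hi, hst⟩ := hst
  rw [List.mem_range] at hi
  simp only [Geo.selI, List.mem_cons, List.not_mem_nil, or_false] at hst
  rcases hst with rfl | rfl | rfl | rfl
  · trivial
  · intro b hb
    simp only [List.mem_singleton] at hb
    subst hb; omega
  · trivial
  · intro b hb
    simp only [List.mem_singleton] at hb
    subst hb; omega

lemma ok_W_below {J : List ℕ} (hds : G.d ≤ G.s) (hJ : ∀ i ∈ J, i < G.d)
    (hp : ∀ l ∈ prog, l.ok G.a) :
    ∀ st ∈ (G.W prog J : List (St δ)), st.below (G.a * G.d + G.s) := by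
  intro st hst
  simp only [Geo.W, List.mem_map] at hst
  obtain ⟨l, hl, rfl⟩ := hst
  have h1 := hp l hl
  have key : ∀ t ≤ G.a, ∀ b ∈ J.map (G.bp t), b < G.a * G.d + G.s := by
    intro t ht b hb
    rw [List.mem_map] at hb
    obtain ⟨i, hi, rfl⟩ := hb
    have h2 := hJ i hi
    unfold Geo.bp
    split_ifs with h3
    · have : G.a * (i + 1) ≤ G.a * G.d := Nat.mul_le_mul_left _ h2
      have h4 : G.a * (i + 1) = G.a * i + G.a := by ring
      omega
    · omega
  cases l with
  | dn t => exact key t h1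
  | up t => exact key t h1
  | dg c => trivial

lemma below_append {K : ℕ} {l l' : List (St δ)} (h : ∀ st ∈ l, st.below K)
    (h' : ∀ st ∈ l', st.below K) : ∀ st ∈ l ++ l', st.below K := by
  intro st hst
  rcases List.mem_append.1 hst with h1 | h1
  · exact h st h1
  · exact h' st h1

lemma below_flatMap {K : ℕ} {l : List ℕ} {F : ℕ → List (St δ)}
    (h : ∀ i ∈ l, ∀ st ∈ F i, st.below K) : ∀ st ∈ l.flatMap F, st.below K := by
  intro st hst
  obtain ⟨i, hi, hst⟩ := List.mem_flatMap.1 hst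
  exact h i hi st hst

/-- all steps after the correction only use bit positions of the array -/
theorem below_rest (hds : G.d ≤ G.s) (hp : ∀ l ∈ prog, l.ok G.a) :
    ∀ st ∈ (G.W prog (List.range G.d) ++ (crtB G prog ++
      (List.range G.s).flatMap G.selI) : List (St δ)), st.below (G.a * G.d + G.s) := by
  refine below_append (ok_W_below hds (fun i hi => List.mem_range.1 hi) hp)
    (below_append (below_append ?_ ?_) ?_)
  · refine below_flatMap fun g _ => ?_
    unfold Geo.stB
    refine below_append (ok_W_below hds (fun i hi => ?_) hp) ?_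
    · exact List.mem_range.1 (List.mem_filter.1 hi).1
    · intro st hst
      rcases List.mem_cons.1 hst with rfl | hst
      · trivial
      · exact ok_W_below hds (fun i hi => List.mem_range.1 (List.mem_filter.1 hi).1) hp st hst
  · refine below_flatMap fun g _ => ?_
    unfold Geo.stA
    refine below_append (ok_W_below hds (fun i hi => ?_) hp) ?_
    · exact List.mem_range.1 (List.mem_filter.1 hi).1
    · intro st hst
      rcases List.mem_cons.1 hst with rfl | hst
      · trivial
      · exact ok_W_below hds (fun i hi => List.mem_range.1 (List.mem_filter.1 hi).1) hp st hst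
  · refine below_flatMap fun i hi => ?_
    rw [List.mem_range] at hi
    intro st hst
    simp only [Geo.selI, List.mem_cons, List.not_mem_nil, or_false] at hst
    rcases hst with rfl | rfl | rfl | rfl
    · trivial
    · intro b hb
      simp only [List.mem_singleton] at hb
      subst hb; omega
    · trivial
    · intro b hb
      simp only [List.mem_singleton] at hb
      subst hb; omega

lemma corr_cW (lv : ℕ → δ → ℕ → ℂ) (u : ℕ) :
    G.val lv (.corr) u * cW (crd G u) = (-1) ^ G.d / 2 ^ G.s := by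
  simp only [Geo.val]
  have h1 : ((List.range G.d).map fun i => if G.rb u i then (1 : ℂ) else -(G.q i : ℂ)).prod =
      ∏ i : Fin G.d, if G.rb u i then (1 : ℂ) else -(G.q i : ℂ) := by
    rw [Fin.prod_univ_eq_prod_range (fun i => if G.rb u i then (1 : ℂ) else -(G.q i : ℂ)),
      Finset.prod_range]
    rw [← List.map_coe_finRange_eq_range, List.map_map, ← Fin.prod_univ_def]
    rfl
  rw [h1]
  unfold cW
  rw [mul_assoc, ← Finset.prod_mul_distrib]
  rw [Finset.prod_eq_one, mul_one]
  intro i _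
  have h2 : (G.q i : ℂ) ≠ 0 := by exact_mod_cast NeZero.ne (G.q i)
  have e1 : (crd G u i).1 = G.rb u i := rfl
  rw [e1]
  by_cases hr : G.rb u i = true
  · rw [if_pos hr, if_pos hr, mul_one]
  · rw [if_neg hr, if_neg hr]
    field_simp

/-- EXACT RUN: forward schedule on both operands, cellwise product, backward schedule = cyclic
product of length `2 ^ s * N` -/
theorem exact_run (hds : G.d ≤ G.s) (hp : ∀ l ∈ prog, l.ok G.a)
    (ht : ∀ i : Fin G.d, Twin (A := fun _ : Fin G.d => Fin (2 ^ (G.a + 1))) (em hq) i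
      (pmat G.a (lv (G.q i)) prog) (Wk G.q i))
    (hC : CrtOK (𝔸 := 𝔸) G hq lv prog re re') (f g : ℕ → 𝔸) {u : ℕ} (hu : u < 2 ^ (G.a * G.d + G.s)) :
    exs G lv (G.bwd prog) (fun v => exs G lv (G.fwd prog) (load G f) v *
      exs G lv (G.fwd prog) (load G g) v) u = load G (conv (tot G) f g) u := by
  have hf := rel_fwd hds hp ht hC f
  have hg := rel_fwd hds hp ht hC g
  have hh := rel_fwd hds hp ht hC (conv (tot G) f g)
  rw [bwd_eq, exs_cons]
  have key : ∀ v < 2 ^ (G.a * G.d + G.s), (St.ex G lv (.dg .corr) (fun v =>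
      exs G lv (G.fwd prog) (load G f) v * exs G lv (G.fwd prog) (load G g) v)) v =
      ((-1 : ℂ) ^ G.d / 2 ^ G.s) • exs G lv (G.fwd prog) (load G (conv (tot G) f g)) v := by
    intro v hv
    simp only [St.ex]
    rw [hf.apply hds hv, hg.apply hds hv, hh.apply hds hv]
    split_ifs
    · rw [conv_char (chr_add _ _) (chr_mod _ _), smul_mul_smul_comm, smul_smul, smul_smul,
        ← corr_cW lv v, mul_assoc]
    · rw [mul_zero, smul_zero, smul_zero]
  rw [exs_congr G lv (below_rest hds hp) key u hu, exs_smul]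
  show ((-1 : ℂ) ^ G.d / 2 ^ G.s) • exs G lv _ (exs G lv (G.fwd prog) (load G _)) u = _
  rw [rest_fwd hds hp ht hC _ hu, smul_smul]
  have h1 : ((-1 : ℂ) ^ G.d / 2 ^ G.s) * ((-1) ^ G.d * 2 ^ G.s) = 1 := by
    have h2 : ((-1 : ℂ) ^ G.d) * (-1) ^ G.d = 1 := by
      rw [← mul_pow]; simp
    have h3 : (2 : ℂ) ^ G.s ≠ 0 := pow_ne_zero _ two_ne_zero
    calc _ = ((-1 : ℂ) ^ G.d * (-1) ^ G.d) * (2 ^ G.s / 2 ^ G.s) := by ring
      _ = 1 := by rw [h2, div_self h3, mul_one]
  rw [h1, one_smul]

end main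

end Vale.Agent.P338.R3.H282
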