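import Vale.Agent.P338.R3.H282.Coord

/-!
P338-D, module ASM (6): the butterflies of the selector bits.
-/

namespace Vale.Agent.P338.R3.H282

open Finset
open Vale.Agent.P338.R3.H352 (zt zt_add zt_mul_self zt_congr zt_scale zt_scale' zt_half zt_neg_mul
  zt_mul_neg zt_zero)

set_option linter.unusedSectionVars false

variable {M : Type*} [AddCommGroup M] [Module ℂ M] {δ : Type}

/-! ### pairs of positions -/

/-- the butterfly without twiddle -/
def bfly {M : Type*} [AddCommGroup M] (b : ℕ) (f : ℕ → M) (u : ℕ) : M :=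
  if u.testBit b then f (u - 2 ^ b) - f u else f u + f (u + 2 ^ b)

lemma testBit_add {u b : ℕ} (h : u.testBit b = false) : (u + 2 ^ b).testBit b = true := by
  rw [testBit_iff, Nat.add_div_right _ (by positivity)]
  have : ¬ (u / 2 ^ b % 2 = 1) := fun h' => by
    rw [(testBit_iff _ _).2 h'] at h
    exact Bool.noConfusion h
  omega

theorem bfly_eq (G : Geo) (lv : ℕ → δ → ℕ → ℂ) (i : ℕ) (f : ℕ → M) :
    exs G lv [.dn [G.a * G.d + i], .dg (.hd i), .up [G.a * G.d + i]] f =
      bfly (G.a * G.d + i) f := by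
  funext u
  simp only [exs, List.foldl_cons, List.foldl_nil, St.ex, List.foldr_cons, List.foldr_nil, bfly,
    upF, dnF, Geo.val, Geo.rb]
  by_cases h : u.testBit (G.a * G.d + i) = true
  · obtain ⟨h1, h2⟩ := testBit_sub h
    simp only [h, h2, if_true, Bool.false_eq_true, if_false, Nat.sub_add_cancel h1]
    module
  · have h' : u.testBit (G.a * G.d + i) = false := by simpa using h
    simp only [h', Bool.false_eq_true, if_false, one_smul]

theorem bfly_bfly (b : ℕ) (f : ℕ → M) : bfly b (bfly b f) = fun u => (2 : ℂ) • f u := by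
  funext u
  by_cases h : u.testBit b = true
  · obtain ⟨h1, h2⟩ := testBit_sub h
    simp only [bfly, h, h2, if_true, Bool.false_eq_true, if_false, Nat.sub_add_cancel h1]
    module
  · have h' : u.testBit b = false := by simpa using h
    have h2 := testBit_add h'
    simp only [bfly, h', h2, if_true, Bool.false_eq_true, if_false, Nat.add_sub_cancel]
    module

theorem selF_eq (G : Geo) (lv : ℕ → δ → ℕ → ℂ) (i : ℕ) (f : ℕ → M) :
    exs G lv (G.selF i) f = fun u => G.val lv (.tw false i) u • bfly (G.a * G.d + i) f u := by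
  have h : (G.selF i : List (St δ)) =
      [.dn [G.a * G.d + i], .dg (.hd i), .up [G.a * G.d + i]] ++ [.dg (.tw false i)] := rfl
  rw [h, exs_append, bfly_eq]
  rfl

theorem selI_eq (G : Geo) (lv : ℕ → δ → ℕ → ℂ) (i : ℕ) (f : ℕ → M) :
    exs G lv (G.selI i) f = bfly (G.a * G.d + i) (fun u => G.val lv (.tw true i) u • f u) := by
  have h : (G.selI i : List (St δ)) =
      [.dg (.tw true i)] ++ [.dn [G.a * G.d + i], .dg (.hd i), .up [G.a * G.d + i]] := rfl
  rw [h, exs_append, bfly_eq]
  rfl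

lemma tw_mul (G : Geo) (lv : ℕ → δ → ℕ → ℂ) (i u : ℕ) :
    G.val lv (.tw true i) u * G.val lv (.tw false i) u = 1 := by
  simp only [Geo.val]
  by_cases h : G.rb u i = true
  · rw [if_pos h, if_pos h]
    simp only [if_true, Bool.false_eq_true, if_false, neg_one_mul, one_mul]
    exact zt_neg_mul _ _
  · rw [if_neg h, if_neg h, one_mul]

theorem selI_selF (G : Geo) (lv : ℕ → δ → ℕ → ℂ) (i : ℕ) (f : ℕ → M) :
    exs G lv (G.selI i) (exs G lv (G.selF i) f) = fun u => (2 : ℂ) • f u := by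
  rw [selI_eq, selF_eq]
  have : (fun u => G.val lv (.tw true i) u • G.val lv (.tw false i) u •
      bfly (G.a * G.d + i) f u) = bfly (G.a * G.d + i) f := by
    funext u
    rw [smul_smul, tw_mul, one_smul]
  rw [this, bfly_bfly]

/-! ### linearity and locality of the exact semantics -/

theorem ex_smul (G : Geo) (lv : ℕ → δ → ℕ → ℂ) (c : ℂ) (st : St δ) (f : ℕ → M) :
    st.ex G lv (fun u => c • f u) = fun u => c • st.ex G lv f u := by
  cases st with
  | dn J =>
    simp only [St.ex]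
    induction J with
    | nil => rfl
    | cons j J ih =>
      rw [List.foldr_cons, List.foldr_cons, ih]
      funext u
      unfold dnF
      split_ifs <;> simp [smul_add]
  | up J =>
    simp only [St.ex]
    induction J with
    | nil => rfl
    | cons j J ih =>
      rw [List.foldr_cons, List.foldr_cons, ih]
      funext u
      unfold upF
      split_ifs <;> simp [smul_add]
  | dg d =>
    funext u
    simp only [St.ex]
    exact smul_comm _ _ _

theorem exs_smul (G : Geo) (lv : ℕ → δ → ℕ → ℂ) (c : ℂ) (l : List (St δ)) (f : ℕ → M) :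
    exs G lv l (fun u => c • f u) = fun u => c • exs G lv l f u := by
  induction l generalizing f with
  | nil => rfl
  | cons st l ih => rw [exs_cons, exs_cons, ex_smul, ih]

theorem selIs_selFs (G : Geo) (lv : ℕ → δ → ℕ → ℂ) (s : ℕ) (f : ℕ → M) :
    exs G lv ((List.range s).flatMap G.selI)
      (exs G lv ((List.range s).reverse.flatMap G.selF) f) = fun u => (2 : ℂ) ^ s • f u := by
  induction s generalizing f with
  | zero => funext u; simp [exs]
  | succ s ih =>
    have h1 : (List.range (s + 1)).reverse = s :: (List.range s).reverse := by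
      rw [List.range_succ, List.reverse_append]; rfl
    rw [h1, List.flatMap_cons, exs_append, List.range_succ, List.flatMap_append, exs_append, ih]
    have h2 : ([s] : List ℕ).flatMap (G.selI : ℕ → List (St δ)) = G.selI s := by simp
    rw [h2, exs_smul, selI_selF]
    funext u
    rw [smul_smul, pow_succ]

/-- all bit positions of the step are below `K` -/
def St.below (K : ℕ) : St δ → Prop
  | .dn J => ∀ b ∈ J, b < K
  | .up J => ∀ b ∈ J, b < K
  | .dg _ => True

lemma add_lt_pow {u b K : ℕ} (hu : u < 2 ^ K) (hb : b < K) (h : u.testBit b = false) :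
    u + 2 ^ b < 2 ^ K := by
  obtain ⟨r, rfl⟩ : ∃ r, K = r + 1 := ⟨K - 1, by omega⟩
  exact (div_mod_add hu (by omega) h).1

lemma dnF_def {M : Type*} [AddCommGroup M] (b : ℕ) (f : ℕ → M) (u : ℕ) :
    dnF b f u = if u.testBit b then f u else f u + f (u + 2 ^ b) := rfl

lemma upF_def {M : Type*} [AddCommGroup M] (b : ℕ) (f : ℕ → M) (u : ℕ) :
    upF b f u = if u.testBit b then f u + f (u - 2 ^ b) else f u := rfl

theorem ex_congr (G : Geo) (lv : ℕ → δ → ℕ → ℂ) {K : ℕ} {st : St δ} (hs : st.below K)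
    {f g : ℕ → M} (h : ∀ u < 2 ^ K, f u = g u) : ∀ u < 2 ^ K, st.ex G lv f u = st.ex G lv g u := by
  cases st with
  | dn J =>
    simp only [St.ex]
    simp only [St.below] at hs
    induction J with
    | nil => exact h
    | cons j J ih =>
      intro u hu
      rw [List.foldr_cons, List.foldr_cons]
      have ih' := ih fun b hb => hs b (List.mem_cons_of_mem _ hb)
      rw [dnF_def, dnF_def]
      split_ifs with hb
      · exact ih' u hu
      · rw [ih' u hu, ih' _ (add_lt_pow hu (hs j List.mem_cons_self) (by simpa using hb))]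
  | up J =>
    simp only [St.ex]
    simp only [St.below] at hs
    induction J with
    | nil => exact h
    | cons j J ih =>
      intro u hu
      rw [List.foldr_cons, List.foldr_cons]
      have ih' := ih fun b hb => hs b (List.mem_cons_of_mem _ hb)
      rw [upF_def, upF_def]
      split_ifs with hb
      · rw [ih' u hu, ih' _ (lt_of_le_of_lt (Nat.sub_le _ _) hu)]
      · exact ih' u hu
  | dg d =>
    intro u hu
    simp only [St.ex]
    rw [h u hu]

theorem exs_congr (G : Geo) (lv : ℕ → δ → ℕ → ℂ) {K : ℕ} {l : List (St δ)}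
    (hl : ∀ st ∈ l, st.below K) {f g : ℕ → M} (h : ∀ u < 2 ^ K, f u = g u) :
    ∀ u < 2 ^ K, exs G lv l f u = exs G lv l g u := by
  induction l generalizing f g with
  | nil => exact h
  | cons st l ih =>
    rw [exs_cons, exs_cons]
    exact ih (fun st' h' => hl st' (List.mem_cons_of_mem _ h'))
      (ex_congr G lv (hl st List.mem_cons_self) h)

/-! ### the explicit formula of the forward butterflies -/

variable (G : Geo)

/-- contribution of the selector bits `i ≤ t < s` of `σ` to the frequency -/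
def kap (s σ i : ℕ) : ℕ := ∑ t ∈ Ico i s, if σ.testBit t then 2 ^ (s - 1 - t) else 0

/-- total number of cells -/
def tot (G : Geo) : ℕ := 2 ^ G.s * G.N

/-- the state after the butterflies of the selector bits `≥ i` -/
noncomputable def sta (f : ℕ → M) (i u : ℕ) : M :=
  if G.valid u then ∑ j ∈ range (tot G), if j % (2 ^ i * G.N) = G.sv u % 2 ^ i * G.N + G.dj u then
    zt (tot G) ((kap G.s (G.sv u) i : ℤ) * j) • f j else 0 else 0

/-- the loaded array -/
def load {M : Type*} [AddCommGroup M] (G : Geo) (f : ℕ → M) (u : ℕ) : M :=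
  if G.valid u then f (G.idx u) else 0

variable {G}

lemma sv_add (u i : ℕ) : G.sv (u + 2 ^ (G.a * G.d + i)) = G.sv u + 2 ^ i := by
  unfold Geo.sv
  rw [pow_add, Nat.add_mul_div_left _ _ (by positivity)]

lemma dv_add (u : ℕ) (c : ℕ) {k : ℕ} (hk : k < G.d) :
    G.dv (u + 2 ^ (G.a * G.d) * c) k = G.dv u k := by
  rw [← dv_mod _ hk, Nat.add_mul_mod_self_left, dv_mod _ hk]

lemma dj_add (u c : ℕ) : G.dj (u + 2 ^ (G.a * G.d) * c) = G.dj u := by
  unfold Geo.dj
  exact Vale.Agent.P338.R3.H955.mv_congr fun k _ hk => dv_add u c (by omega)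

lemma valid_add (u c : ℕ) : G.valid (u + 2 ^ (G.a * G.d) * c) = G.valid u := by
  rw [Bool.eq_iff_iff, valid_iff, valid_iff]
  constructor
  · intro h i hi
    rw [← dv_add u c hi]
    exact h i hi
  · intro h i hi
    rw [dv_add u c hi]
    exact h i hi

lemma dj_lt {u : ℕ} (h : G.valid u = true) : G.dj u < G.N := by
  rw [valid_iff] at h
  exact Vale.Agent.P338.R3.H955.mv_lt fun k _ hk => h k (by omega)

lemma kap_succ {s i : ℕ} (hi : i < s) (σ : ℕ) :
    kap s σ i = kap s σ (i + 1) + if σ.testBit i then 2 ^ (s - 1 - i) else 0 := by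
  unfold kap
  rw [Finset.sum_eq_sum_Ico_succ_bot hi]
  ring

lemma kap_add {s i σ : ℕ} (h : σ.testBit i = false) : kap s (σ + 2 ^ i) (i + 1) = kap s σ (i + 1) := by
  unfold kap
  refine Finset.sum_congr rfl fun t ht => ?_
  rw [mem_Ico] at ht
  have h0 : σ / 2 ^ i % 2 = 0 := by
    have : ¬ (σ / 2 ^ i % 2 = 1) := fun h' => by
      rw [(testBit_iff _ _).2 h'] at h
      exact Bool.noConfusion h
    omega
  have h1 : (σ + 2 ^ i) / 2 ^ t = σ / 2 ^ t := by
    obtain ⟨r, rfl⟩ : ∃ r, t = i + (1 + r) := ⟨t - i - 1, by omega⟩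
    rw [pow_add, pow_add, pow_one, ← Nat.div_div_eq_div_mul, ← Nat.div_div_eq_div_mul,
      ← Nat.div_div_eq_div_mul, ← Nat.div_div_eq_div_mul, Nat.add_div_right _ (by positivity)]
    congr 1
    omega
  rw [Nat.testBit_eq_decide_div_mod_eq, Nat.testBit_eq_decide_div_mod_eq, h1]

/-- splitting of a class modulo `2 ^ i N` -/
lemma mod_split {j i N r : ℕ} (hN : 0 < N) (hr : r < 2 ^ i * N) :
    (j % (2 ^ i * N) = r ↔ j % (2 ^ (i + 1) * N) = r ∨ j % (2 ^ (i + 1) * N) = r + 2 ^ i * N) ∧
      ¬ (j % (2 ^ (i + 1) * N) = r ∧ j % (2 ^ (i + 1) * N) = r + 2 ^ i * N) := by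
  have hpos : 0 < 2 ^ i * N := by positivity
  have h1 : 2 ^ (i + 1) * N = (2 ^ i * N) * 2 := by rw [pow_succ]; ring
  have hm : j % ((2 ^ i * N) * 2) = j % (2 ^ i * N) + (2 ^ i * N) * (j / (2 ^ i * N) % 2) :=
    Nat.mod_mul
  rw [h1, hm]
  have h2 : j / (2 ^ i * N) % 2 < 2 := Nat.mod_lt _ (by norm_num)
  have h3 : j % (2 ^ i * N) < 2 ^ i * N := Nat.mod_lt _ hpos
  refine ⟨⟨fun h => ?_, fun h => ?_⟩, fun h => by omega⟩
  · rcases (by omega : j / (2 ^ i * N) % 2 = 0 ∨ j / (2 ^ i * N) % 2 = 1) with h4 | h4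
    · left; rw [h4, h, mul_zero, add_zero]
    · right; rw [h4, h, mul_one]
  · rcases (by omega : j / (2 ^ i * N) % 2 = 0 ∨ j / (2 ^ i * N) % 2 = 1) with h4 | h4
    · rw [h4, mul_zero, add_zero] at h
      rcases h with h | h <;> omega
    · rw [h4, mul_one] at h
      rcases h with h | h <;> omega

lemma N_pos [∀ k, NeZero (G.q k)] : 0 < G.N :=
  Vale.Agent.P338.R3.H955.up_pos fun k _ _ => Nat.pos_of_ne_zero (NeZero.ne _)

lemma mod_add_bit {σ i : ℕ} (h : σ.testBit i = false) :
    σ % 2 ^ (i + 1) = σ % 2 ^ i ∧ (σ + 2 ^ i) % 2 ^ (i + 1) = σ % 2 ^ i + 2 ^ i ∧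
      (σ + 2 ^ i) % 2 ^ i = σ % 2 ^ i := by
  have h0 : σ / 2 ^ i % 2 = 0 := by
    have : ¬ (σ / 2 ^ i % 2 = 1) := fun h' => by
      rw [(testBit_iff _ _).2 h'] at h
      exact Bool.noConfusion h
    omega
  refine ⟨?_, ?_, by simp⟩
  · rw [pow_succ, Nat.mod_mul, h0]; simp
  · have h1 : (σ + 2 ^ i) / 2 ^ i % 2 = 1 := by
      rw [Nat.add_div_right _ (by positivity)]
      omega
    rw [pow_succ, Nat.mod_mul, h1]
    simp

/-- the sum over one class modulo `2 ^ (i + 1) N` -/
noncomputable def cls (G : Geo) (f : ℕ → M) (i κ r : ℕ) : M :=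
  ∑ j ∈ range (tot G), if j % (2 ^ i * G.N) = r then zt (tot G) ((κ : ℤ) * j) • f j else 0

lemma sta_eq (f : ℕ → M) (i u : ℕ) : sta G f i u = if G.valid u then
    cls G f i (kap G.s (G.sv u) i) (G.sv u % 2 ^ i * G.N + G.dj u) else 0 := rfl

lemma cls_add [∀ k, NeZero (G.q k)] (f : ℕ → M) (i κ : ℕ) {r : ℕ} (hr : r < 2 ^ i * G.N) :
    cls G f (i + 1) κ r + cls G f (i + 1) κ (r + 2 ^ i * G.N) = cls G f i κ r := by
  unfold cls
  rw [← Finset.sum_add_distrib]
  refine Finset.sum_congr rfl fun j _ => ?_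
  obtain ⟨h1, h2⟩ := mod_split (j := j) (i := i) N_pos hr
  by_cases ha : j % (2 ^ (i + 1) * G.N) = r
  · have hb : ¬ j % (2 ^ (i + 1) * G.N) = r + 2 ^ i * G.N := fun hb => h2 ⟨ha, hb⟩
    rw [if_pos ha, if_neg hb, if_pos (h1.2 (Or.inl ha)), add_zero]
  · by_cases hb : j % (2 ^ (i + 1) * G.N) = r + 2 ^ i * G.N
    · rw [if_neg ha, if_pos hb, if_pos (h1.2 (Or.inr hb)), zero_add]
    · rw [if_neg ha, if_neg hb, if_neg, add_zero]
      intro h
      rcases h1.1 h with h | h
      · exact ha h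
      · exact hb h

lemma zt_class [∀ k, NeZero (G.q k)] {i j r : ℕ} (hi : i < G.s)
    (h : j % (2 ^ (i + 1) * G.N) = r) :
    zt (tot G) ((2 ^ (G.s - 1 - i) : ℕ) * (j : ℤ)) = zt (2 ^ (i + 1) * G.N) (r : ℤ) := by
  have h1 : tot G = 2 ^ (G.s - 1 - i) * (2 ^ (i + 1) * G.N) := by
    unfold tot
    rw [← mul_assoc, ← pow_add]
    congr 2
    omega
  rw [h1]
  rw [zt_scale' (by positivity)]
  have hN := N_pos (G := G)
  apply zt_congr (by positivity)
  rw [← h]
  have := (Nat.mod_modEq j (2 ^ (i + 1) * G.N)).symm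
  exact_mod_cast (Int.natCast_modEq_iff.2 this)

lemma cls_sub [∀ k, NeZero (G.q k)] (f : ℕ → M) {i : ℕ} (hi : i < G.s) (κ : ℕ) {r : ℕ}
    (hr : r < 2 ^ i * G.N) :
    zt (2 ^ (i + 1) * G.N) (r : ℤ) • (cls G f (i + 1) κ r - cls G f (i + 1) κ (r + 2 ^ i * G.N)) =
      cls G f i (κ + 2 ^ (G.s - 1 - i)) r := by
  unfold cls
  rw [← Finset.sum_sub_distrib, Finset.smul_sum]
  refine Finset.sum_congr rfl fun j _ => ?_
  obtain ⟨h1, h2⟩ := mod_split (j := j) (i := i) N_pos hr
  have hsplit : zt (tot G) (((κ + 2 ^ (G.s - 1 - i) : ℕ) : ℤ) * j) =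
      zt (tot G) ((κ : ℤ) * j) * zt (tot G) ((2 ^ (G.s - 1 - i) : ℕ) * (j : ℤ)) := by
    rw [← zt_add]
    congr 1
    push_cast
    ring
  by_cases ha : j % (2 ^ (i + 1) * G.N) = r
  · have hb : ¬ j % (2 ^ (i + 1) * G.N) = r + 2 ^ i * G.N := fun hb => h2 ⟨ha, hb⟩
    rw [if_pos ha, if_neg hb, if_pos (h1.2 (Or.inl ha)), sub_zero, hsplit, zt_class hi ha,
      smul_smul, mul_comm]
  · by_cases hb : j % (2 ^ (i + 1) * G.N) = r + 2 ^ i * G.N
    · rw [if_neg ha, if_pos hb, if_pos (h1.2 (Or.inr hb)), zero_sub, hsplit, zt_class hi hb]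
      have h3 : zt (2 ^ (i + 1) * G.N) ((r + 2 ^ i * G.N : ℕ) : ℤ) =
          -zt (2 ^ (i + 1) * G.N) (r : ℤ) := by
        have hN := N_pos (G := G)
        have h4 : 2 ^ (i + 1) * G.N = 2 * (2 ^ i * G.N) := by rw [pow_succ]; ring
        rw [Nat.cast_add, zt_add, h4, zt_half (by positivity), mul_neg_one]
      rw [h3, smul_neg, smul_smul, ← neg_smul]
      congr 1
      ring
    · rw [if_neg ha, if_neg hb, if_neg, sub_zero, smul_zero]
      intro h
      rcases h1.1 h with h | h
      · exact ha h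
      · exact hb h

/-- one butterfly -/
theorem sta_step [∀ k, NeZero (G.q k)] (lv : ℕ → δ → ℕ → ℂ) {i : ℕ} (hi : i < G.s) (f : ℕ → M) :
    exs G lv (G.selF i) (sta G f (i + 1)) = sta G f i := by
  rw [selF_eq]
  -- the two positions of a pair
  have key : ∀ v, (G.sv v).testBit i = false → G.valid v = true →
      sta G f (i + 1) v = cls G f (i + 1) (kap G.s (G.sv v) (i + 1))
        (G.sv v % 2 ^ i * G.N + G.dj v) ∧
      sta G f (i + 1) (v + 2 ^ (G.a * G.d + i)) = cls G f (i + 1) (kap G.s (G.sv v) (i + 1))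
        (G.sv v % 2 ^ i * G.N + G.dj v + 2 ^ i * G.N) ∧
      sta G f i v = cls G f i (kap G.s (G.sv v) (i + 1)) (G.sv v % 2 ^ i * G.N + G.dj v) ∧
      sta G f i (v + 2 ^ (G.a * G.d + i)) = cls G f i
        (kap G.s (G.sv v) (i + 1) + 2 ^ (G.s - 1 - i)) (G.sv v % 2 ^ i * G.N + G.dj v) := by
    intro v hv hval
    obtain ⟨m1, m2, m3⟩ := mod_add_bit hv
    have e1 : v + 2 ^ (G.a * G.d + i) = v + 2 ^ (G.a * G.d) * 2 ^ i := by rw [pow_add]
    have e2 : G.valid (v + 2 ^ (G.a * G.d + i)) = true := by rw [e1, valid_add, hval]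
    have e3 : G.dj (v + 2 ^ (G.a * G.d + i)) = G.dj v := by rw [e1, dj_add]
    have e4 : (G.sv v + 2 ^ i).testBit i = true := testBit_add hv
    refine ⟨?_, ?_, ?_, ?_⟩
    · rw [sta_eq, if_pos hval, m1]
    · rw [sta_eq, if_pos e2, e3, sv_add, m2, kap_add hv]
      congr 1
      ring
    · rw [sta_eq, if_pos hval, kap_succ hi]
      simp [hv]
    · rw [sta_eq, if_pos e2, e3, sv_add, m3, kap_succ hi, kap_add hv, if_pos e4]
  funext u
  have hrb : u.testBit (G.a * G.d + i) = (G.sv u).testBit i := rb_eq u i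
  have hrb' : G.rb u i = (G.sv u).testBit i := rb_eq u i
  by_cases hbit : (G.sv u).testBit i = true
  · -- `u = v + 2 ^ b`
    have hb1 : u.testBit (G.a * G.d + i) = true := by rw [hrb, hbit]
    obtain ⟨h1, h2⟩ := testBit_sub hb1
    obtain ⟨v, rfl⟩ := Nat.exists_eq_add_of_le' h1
    rw [Nat.add_sub_cancel] at h2
    have hv : (G.sv v).testBit i = false := by rw [← rb_eq]; exact h2
    have e1 : v + 2 ^ (G.a * G.d + i) = v + 2 ^ (G.a * G.d) * 2 ^ i := by rw [pow_add]
    by_cases hval : G.valid v = true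
    · obtain ⟨k1, k2, k3, k4⟩ := key v hv hval
      have hlt : G.sv v % 2 ^ i * G.N + G.dj v < 2 ^ i * G.N := by
        have h5 := dj_lt hval
        have h6 : G.sv v % 2 ^ i < 2 ^ i := Nat.mod_lt _ (by positivity)
        calc _ < G.sv v % 2 ^ i * G.N + G.N := by omega
          _ = (G.sv v % 2 ^ i + 1) * G.N := by ring
          _ ≤ 2 ^ i * G.N := Nat.mul_le_mul_right _ h6
      rw [k4, ← cls_sub f hi _ hlt]
      simp only [bfly, hb1, if_true, Nat.add_sub_cancel]
      rw [k1, k2]
      congr 1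
      simp only [Geo.val]
      rw [if_pos (by rw [hrb', hbit])]
      have e3 : G.dj (v + 2 ^ (G.a * G.d + i)) = G.dj v := by rw [e1, dj_add]
      obtain ⟨m1, m2, m3⟩ := mod_add_bit hv
      rw [e3, sv_add, m3]
      simp
    · have hval' : ¬ G.valid (v + 2 ^ (G.a * G.d + i)) = true := by rwa [e1, valid_add]
      have s1 : sta G f i (v + 2 ^ (G.a * G.d + i)) = 0 := by rw [sta_eq, if_neg hval']
      have s2 : sta G f (i + 1) (v + 2 ^ (G.a * G.d + i)) = 0 := by rw [sta_eq, if_neg hval']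
      have s3 : sta G f (i + 1) v = 0 := by rw [sta_eq, if_neg hval]
      rw [s1]
      simp only [bfly, hb1, if_true, Nat.add_sub_cancel]
      rw [s2, s3, sub_zero, smul_zero]
  · have hv : (G.sv u).testBit i = false := by simpa using hbit
    have hb1 : u.testBit (G.a * G.d + i) = false := by rw [hrb, hv]
    have htw : G.val lv (.tw false i : DC δ) u = 1 := by
      simp only [Geo.val]
      rw [if_neg (by rw [hrb', hv]; simp)]
    rw [htw, one_smul]
    simp only [bfly, hb1, Bool.false_eq_true, if_false]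
    by_cases hval : G.valid u = true
    · obtain ⟨k1, k2, k3, k4⟩ := key u hv hval
      have hlt : G.sv u % 2 ^ i * G.N + G.dj u < 2 ^ i * G.N := by
        have h5 := dj_lt hval
        have h6 : G.sv u % 2 ^ i < 2 ^ i := Nat.mod_lt _ (by positivity)
        calc _ < G.sv u % 2 ^ i * G.N + G.N := by omega
          _ = (G.sv u % 2 ^ i + 1) * G.N := by ring
          _ ≤ 2 ^ i * G.N := Nat.mul_le_mul_right _ h6
      rw [k1, k2, k3, cls_add f i _ hlt]
    · have e1 : u + 2 ^ (G.a * G.d + i) = u + 2 ^ (G.a * G.d) * 2 ^ i := by rw [pow_add]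
      have hval' : ¬ G.valid (u + 2 ^ (G.a * G.d + i)) = true := by rwa [e1, valid_add]
      have s1 : sta G f i u = 0 := by rw [sta_eq, if_neg hval]
      have s2 : sta G f (i + 1) (u + 2 ^ (G.a * G.d + i)) = 0 := by rw [sta_eq, if_neg hval']
      have s3 : sta G f (i + 1) u = 0 := by rw [sta_eq, if_neg hval]
      rw [s1, s2, s3, add_zero]

theorem sta_steps [∀ k, NeZero (G.q k)] (lv : ℕ → δ → ℕ → ℂ) {m : ℕ} (hm : m ≤ G.s) (f : ℕ → M) :
    exs G lv ((List.range m).reverse.flatMap G.selF) (sta G f m) = sta G f 0 := by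
  induction m with
  | zero => rfl
  | succ m ih =>
    have h1 : (List.range (m + 1)).reverse = m :: (List.range m).reverse := by
      rw [List.range_succ, List.reverse_append]; rfl
    rw [h1, List.flatMap_cons, exs_append, sta_step lv (by omega), ih (by omega)]

lemma sv_lt' {u : ℕ} (hu : u < 2 ^ (G.a * G.d + G.s)) : G.sv u < 2 ^ G.s := by
  unfold Geo.sv
  rwa [Nat.div_lt_iff_lt_mul (by positivity), mul_comm, ← pow_add]

/-- the start -/
theorem sta_load [∀ k, NeZero (G.q k)] (f : ℕ → M) {u : ℕ} (hu : u < 2 ^ (G.a * G.d + G.s)) :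
    sta G f G.s u = load G f u := by
  rw [sta_eq]
  unfold load
  split_ifs with hval
  · have h1 := sv_lt' hu
    have h2 := dj_lt hval
    have hk : kap G.s (G.sv u) G.s = 0 := by simp [kap]
    rw [Nat.mod_eq_of_lt h1, hk]
    unfold cls
    have hidx : G.sv u * G.N + G.dj u < tot G := by
      unfold tot
      calc _ < G.sv u * G.N + G.N := by omega
        _ = (G.sv u + 1) * G.N := by ring
        _ ≤ 2 ^ G.s * G.N := Nat.mul_le_mul_right _ h1
    rw [Finset.sum_eq_single (G.sv u * G.N + G.dj u)]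
    · have h3 : (G.sv u * G.N + G.dj u) % (2 ^ G.s * G.N) = G.sv u * G.N + G.dj u :=
        Nat.mod_eq_of_lt hidx
      rw [if_pos h3]
      simp [zt_zero, Geo.idx]
    · intro j hj hne
      rw [if_neg]
      intro h
      apply hne
      rw [← h]
      exact (Nat.mod_eq_of_lt (mem_range.1 hj)).symm
    · intro h
      exact absurd (mem_range.2 hidx) h
  · rfl

/-- FORWARD BUTTERFLIES: explicit formula -/
theorem selFs_load [∀ k, NeZero (G.q k)] (lv : ℕ → δ → ℕ → ℂ) (f : ℕ → M) {u : ℕ}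
    (hu : u < 2 ^ (G.a * G.d + G.s)) :
    exs G lv ((List.range G.s).reverse.flatMap G.selF) (load G f) u =
      if G.valid u then ∑ j ∈ range (tot G), if j % G.N = G.dj u then
        zt (tot G) ((kap G.s (G.sv u) 0 : ℤ) * j) • f j else 0 else 0 := by
  rw [← exs_congr G lv (K := G.a * G.d + G.s) ?_ (fun u hu => sta_load f hu) u hu,
    sta_steps lv le_rfl, sta_eq]
  · unfold cls
    simp [Nat.mod_one]
  · intro st hst
    rw [List.mem_flatMap] at hst
    obtain ⟨i, hi, hst⟩ := hst
    rw [List.mem_reverse, List.mem_range] at hi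
    simp only [Geo.selF, List.mem_cons, List.not_mem_nil, or_false] at hst
    rcases hst with rfl | rfl | rfl | rfl
    · intro b hb
      simp only [List.mem_singleton] at hb
      subst hb; omega
    · trivial
    · intro b hb
      simp only [List.mem_singleton] at hb
      subst hb; omega
    · trivial

end Vale.Agent.P338.R3.H282
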